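import Crest.Agent.R12.QR.Par

/-!
Row 12, block QB, dual rows (owner helper72): plain factors and the twist.
-/

set_option autoImplicit false

namespace Crest.Agent.R12

open Crest.Agent.R17
open scoped ComplexConjugate

theorem qpla_tsum {X : ℝ} {f : O → ℂ} (h : ∀ n, Prim n → f n ≠ 0 → nm n ≤ X) :
    ∑ n ∈ pball X, f n = ∑' n : Pr, f n := by
  classical
  rw [tsum_eq_sum (s := (pball X).subtype (· ∈ Pr)),
    Finset.sum_subtype_of_mem f fun n hn => mem_Pr.2 (mem_pball.1 hn).2]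
  intro n hn
  by_contra h0
  exact hn (Finset.mem_subtype.2 (mem_pball.2 ⟨h n (Pr_prim n) h0, Pr_prim n⟩))

theorem qpla_shift {M σ x : ℝ} (hM : 0 < M) (hx : 0 < x) (hσ : |σ| ≤ 3) :
    LW 1 (M * Real.exp σ) x ≤ Real.exp (9 / 2) * LW (√2) M x := by
  unfold LW
  rw [bta_log hM hx, ← Real.exp_add, Real.exp_le_exp, Real.sq_sqrt (by norm_num)]
  have h : σ ^ 2 ≤ 9 := by
    rw [← sq_abs]
    nlinarith [abs_nonneg σ]
  nlinarith [sq_nonneg (Real.log (x / M) - 2 * σ)]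

/-- Put `n = a n'` (`tsum_Pr_dvd`; the finite sum is the `tsum` over `Pr` because the cut forces
`N n ≤ N (b n) ≤ M R ≤ X`).  `pl l M' t (b a n') = al (b a) ^ l · pl l (M' / N (b a)) t n'` (`LN_mul_arg`,
`al_mul`, `mul_zpow`), `cb κ (a n') = cb κ a · cb κ n'`, `‖al (b a) ^ l‖ = 1`.  The terms removed by the cut are at most
`LW 1 (M e^σ) x ≤ e^(σ²/2) LW √2 M x` at `x = N (b a n')` (`(u - σ)² ≥ u²/2 - σ²`); sum them with `LW_tail`
(`θ = 0`, `Z = Y`, `a = √2`, image of a finite set under `n' ↦ b a n'`; `Real.tsum_le_of_sum_le` or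
`summable_of_sum_le`). -/
theorem TS_plw (J ε : ℝ) (hε : 0 < ε) : ∃ C : ℝ, 0 < C ∧ ∀ (l : ℤ) (κ b a : O) (M σ t R X Y : ℝ),
    Prim b → Prim a → 1 ≤ Y → Y ^ ε ≤ R → 0 < M → M ≤ Y → M * R ≤ X → |σ| ≤ 3 →
    ‖TS κ X (ms b a (plw l M σ t R))‖ ≤
      ‖PSc l κ (M * Real.exp σ / (nm b * nm a)) t‖ + C * Y ^ (-J) := by
  classical
  obtain ⟨C, hC, hT⟩ := LW_tail 0 J ε hε
  refine ⟨Real.exp (9 / 2) * C, by positivity, fun l κ b a M σ t R X Y hb ha hY hR hM hMY hX hσ => ?_⟩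
  have hYε : 0 < Y ^ ε := by positivity
  set M' := M * Real.exp σ / (nm b * nm a) with hM'
  have hM'0 : 0 < M' := by
    have := nm_pos hb.ne_zero
    have := nm_pos ha.ne_zero
    positivity
  set W : Pr → ℂ := fun m => plw l M σ t R (b * (a * m)) * cb κ (a * m) with hW
  set P : Pr → ℂ := fun m => pl l (M * Real.exp σ) t (b * (a * m)) * cb κ (a * m) with hP
  have e1 : TS κ X (ms b a (plw l M σ t R)) = ∑' m, W m := by
    rw [TS, qpla_tsum, ← tsum_Pr_dvd ha fun n => plw l M σ t R (b * n) * cb κ n]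
    · exact tsum_congr fun n => by simp [ms]
    · intro n hn h0
      have h1 : plw l M σ t R (b * n) ≠ 0 := fun h => h0 (by simp [ms, h])
      exact ((nm_le_of_dvd (dvd_mul_left n b) (hb.mul hn).ne_zero).trans (plw_supp h1)).trans hX
  have e2 : ∀ m : Pr, P m = al (b * a) ^ l * cb κ a * (cb κ m * pl l M' t m) := fun m => by
    simp only [hP, pl]
    rw [← mul_assoc b, al_mul (b * a), mul_zpow, nm_mul (b * a), LN_mul_arg, nm_mul, cb_mul_right]
    ring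
  have hu : ‖al (b * a) ^ l * cb κ a‖ ≤ 1 := by
    rw [norm_mul]
    exact mul_le_one₀ (bla_norm_le _ _) (norm_nonneg _) (norm_cb_le _ _)
  have s1 : Summable P := by
    have := (summable_LW one_pos hM'0 0).comp_injective (Subtype.val_injective (p := (· ∈ Pr)))
    refine Summable.of_norm_bounded this fun m => ?_
    rw [e2, norm_mul, norm_mul (cb κ m), norm_pl_le l M' t (Pr_prim m)]
    simp only [Function.comp, Real.rpow_zero, one_mul]
    exact (mul_le_of_le_one_left (mul_nonneg (norm_nonneg _) (LW_pos _ _ _).le) hu).trans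
      (mul_le_of_le_one_left (LW_pos _ _ _).le (norm_cb_le _ _))
  have e3 : ∀ S : Finset Pr, ∑ m ∈ S, ‖P m - W m‖ ≤ Real.exp (9 / 2) * C * Y ^ (-J) := by
    intro S
    set ok : Pr → Prop := fun m => M / R < nm (b * (a * m)) ∧ nm (b * (a * m)) ≤ M * R with hok
    have inj : Function.Injective fun m : Pr => b * (a * (m : O)) := fun m m' h =>
      Subtype.ext (mul_left_cancel₀ ha.ne_zero (mul_left_cancel₀ hb.ne_zero h))
    have h1 := hT (√2) M Y ((S.filter fun m => ¬ ok m).image fun m : Pr => b * (a * (m : O)))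
      (by positivity) (by rw [Real.sqrt_le_left (by norm_num)]; norm_num) hY hM hMY (by
        intro n hn
        obtain ⟨m, hm, rfl⟩ := Finset.mem_image.1 hn
        refine ⟨(hb.mul (ha.mul (Pr_prim m))).ne_zero, ?_⟩
        rcases not_and_or.1 (Finset.mem_filter.1 hm).2 with h | h
        · left
          refine (not_lt.1 h).trans ?_
          rw [Real.rpow_neg (by linarith), ← div_eq_mul_inv]
          exact div_le_div_of_nonneg_left hM.le hYε hR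
        · right
          exact (mul_le_mul_of_nonneg_left hR hM.le).trans (not_le.1 h).le)
    rw [Finset.sum_image fun m _ m' _ h => inj h] at h1
    rw [← Finset.sum_filter_of_ne (p := fun m => ¬ ok m) fun m _ hm h0 => hm (by
      simp only [hP, hW, plw]
      rw [if_pos h0, sub_self, norm_zero]), mul_assoc]
    refine le_trans ?_ (mul_le_mul_of_nonneg_left h1 (Real.exp_pos _).le)
    rw [Finset.mul_sum]
    refine Finset.sum_le_sum fun m hm => ?_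
    have hp := hb.mul (ha.mul (Pr_prim m))
    simp only [hP, hW, plw]
    rw [if_neg (Finset.mem_filter.1 hm).2, zero_mul, sub_zero, norm_mul, norm_pl_le _ _ _ hp, abs_zero,
      Real.rpow_zero, one_mul]
    exact (mul_le_of_le_one_right (LW_pos _ _ _).le (norm_cb_le _ _)).trans
      (qpla_shift hM (nm_pos hp.ne_zero) hσ)
  have s2 : Summable fun m => ‖P m - W m‖ := summable_of_sum_le (fun _ => norm_nonneg _) e3
  have e4 : ∑' m, W m = ∑' m, P m - ∑' m, (P m - W m) := by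
    rw [← s1.tsum_sub s2.of_norm]
    simp
  rw [e1, e4]
  refine (norm_sub_le _ _).trans (add_le_add ?_ ((norm_tsum_le_tsum_norm s2).trans
    (Real.tsum_le_of_sum_le (fun _ => norm_nonneg _) e3)))
  rw [tsum_congr e2, tsum_mul_left, norm_mul]
  exact mul_le_of_le_one_left (norm_nonneg _) hu

/-- the trivial bound (`tsum_LW_le`) -/
theorem norm_PSc_le : ∃ C : ℝ, 0 < C ∧ ∀ (l : ℤ) (κ : O) (M t : ℝ), 0 < M →
    ‖PSc l κ M t‖ ≤ C * (M + 1) := by
  obtain ⟨C, hC, h⟩ := tsum_LW_le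
  refine ⟨2 * C, by positivity, fun l κ M t hM => ?_⟩
  have hs : Summable fun n : Pr => LW 1 M (nm n) := by
    have := (summable_LW one_pos hM 0).comp_injective
      (Subtype.val_injective (p := fun n => n ∈ Pr))
    simpa only [Real.rpow_zero, one_mul, Function.comp_def] using this
  have h1 : ‖PSc l κ M t‖ ≤ ∑' n : Pr, LW 1 M (nm n) := by
    refine tsum_of_norm_bounded hs.hasSum fun n => ?_
    rw [pl, norm_mul, norm_mul, norm_zpow, norm_al (Pr_prim n).ne_zero, one_zpow, one_mul,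
      norm_LN_eq_LW]
    exact mul_le_of_le_one_left (LW_pos _ _ _).le (norm_cb_le _ _)
  have h2 := h 1 M one_pos one_le_two hM
  have h3 : Real.sqrt M ≤ M + 1 := Real.sqrt_le_iff.2 ⟨by positivity, by nlinarith⟩
  calc ‖PSc l κ M t‖ ≤ C * (1 * M + Real.sqrt M) := h1.trans h2
    _ ≤ C * (2 * (M + 1)) := mul_le_mul_of_nonneg_left (by linarith) hC.le
    _ = 2 * C * (M + 1) := by ring

open Classical in
theorem plb_mq {X : ℝ} {n : O} (hn : Prim n) (hX : nm n ≤ X) :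
    mq (pball X) n = if Squarefree n then 1 else 0 := by
  rw [← sum_mu_sq hn, mq]
  refine (Finset.sum_subset (fun d hd => ?_) fun d hd hd' => if_neg fun h => hd' ?_).symm
  · obtain ⟨h1, h2⟩ := (mem_pdiv hn.ne_zero).1 hd
    exact mem_pball.2 ⟨(nm_le_of_dvd h2 hn.ne_zero).trans hX, h1⟩
  · exact (mem_pdiv hn.ne_zero).2 ⟨(mem_pball.1 hd).2, (dvd_pow_self d two_ne_zero).trans h⟩

open Classical in
/-- `γ (l n) = 0` unless `n` is primary (`Prim.of_mul`); `psq_mul_iff`, `cb_mul_cube`, `sum_mu_sq`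
(`d² ∣ n` gives `N d ≤ N n ≤ X`, so the sum over `pball X` is the sum over `pdiv n`) -/
theorem RS_eq_RB {γ Γ : O → ℂ} (hγ : ∀ b, γ b = if PSq b then Γ b else 0) (X B : ℝ) {l : O} (hl : PSq l)
    (h k : O) (z : ℂ) : RS γ X B l h k z =
      RB (pball X) (fun b => Γ b * ((nm b / B : ℝ) : ℂ) ^ z) X l (k * h * l ^ 3) := by
  have hsub : pball X ⊆ ball X := fun n hn => mem_ball.2 (mem_pball.1 hn).1
  rw [RS, RB, TS, ← Finset.sum_subset hsub fun n hn hn' => ?_]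
  · refine Finset.sum_congr rfl fun n hn => ?_
    obtain ⟨h1, h2⟩ := mem_pball.1 hn
    rw [plb_mq h2 h1, cb_mul_cube _ _ h2, hγ]
    by_cases h3 : PSq (l * n)
    · obtain ⟨-, h4, h5⟩ := (psq_mul_iff hl.1 h2).1 h3
      rw [if_pos h3, if_pos h4.2, if_pos h5.symm]
      ring
    · rw [if_neg h3]
      by_cases h4 : Squarefree n
      · rw [if_neg (c := IsCoprime n l) fun h5 => h3 ((psq_mul_iff hl.1 h2).2 ⟨hl, ⟨h2, h4⟩, h5.symm⟩)]
        simp
      · rw [if_neg h4]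
        simp
  · rw [hγ, if_neg fun h3 => hn' (mem_pball.2 ⟨mem_ball.1 hn, hl.1.of_mul h3.1⟩)]
    simp

theorem RB_congr (T : Finset O) {Γ Γ' : O → ℂ} {w : ℂ} (hΓ : ∀ b, Prim b → Γ b = w * Γ' b) (X : ℝ)
    {l : O} (hl : Prim l) (κ : O) : RB T Γ X l κ = w * RB T Γ' X l κ := by
  simp only [RB, TS, Finset.mul_sum]
  refine Finset.sum_congr rfl fun n hn => ?_
  rw [hΓ _ (hl.mul (mem_pball.1 hn).2)]
  ring

/-- `LN_mul_cpow` with `a = 1`, `s = z`; `(x / M)^z = x^z / M^z` for positive reals -/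
theorem plc_twist (l : ℤ) {M : ℝ} (hM : 0 < M) (t R : ℝ) {z : ℂ} (hz : |z.re| ≤ 3) :
    ∃ u : ℂ, ‖u‖ ≤ Real.exp (9 / 2) ∧ ∀ n, Prim n →
      plc l M t R n * ((nm n / M : ℝ) : ℂ) ^ z = u * plw l M z.re (t + z.im) R n := by
  refine ⟨Complex.exp (((1 ^ 2 * z.re ^ 2 / 2 : ℝ) : ℂ) +
    Complex.I * ((1 ^ 2 * z.re * (t + z.im) : ℝ) : ℂ)), ?_, fun n hn => ?_⟩
  · rw [Complex.norm_exp, Real.exp_le_exp]
    simp only [Complex.add_re, Complex.ofReal_re, Complex.mul_re, Complex.I_re, Complex.I_im,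
      Complex.ofReal_im, zero_mul, mul_zero, sub_zero, add_zero]
    have := abs_le.1 hz
    nlinarith
  · have hx : 0 < nm n := nm_pos hn.ne_zero
    have h1 := LN_mul_cpow one_pos hM hx t z
    have h2 : (nm n : ℂ) ^ z = (M : ℂ) ^ z * ((nm n / M : ℝ) : ℂ) ^ z := by
      rw [← Complex.mul_cpow_ofReal_nonneg hM.le (div_pos hx hM).le, ← Complex.ofReal_mul,
        mul_div_cancel₀ _ hM.ne']
    have h3 : (M : ℂ) ^ z ≠ 0 := fun h =>
      hM.ne' (Complex.ofReal_eq_zero.1 (Complex.cpow_eq_zero_iff _ _ |>.1 h).1)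
    rw [h2, one_pow, one_mul z.re] at h1
    unfold plc plw pl
    split_ifs
    · refine mul_left_cancel₀ h3 ?_
      rw [one_pow, one_mul z.re]
      linear_combination (al n ^ l) * h1
    · simp

/-- `N b / B = (N₀ M₂ M₃ / B) (N n₀ / N₀) (N n₂ / M₂) (N n₃ / M₃)` (`Complex.mul_cpow_ofReal_nonneg`);
`c' n = c n (N n / N₀)^z / 8`, `w = 8 u₂ u₃ (N₀ M₂ M₃ / B)^z` with `plc_twist` -/
theorem exists_twist (l : ℤ) {k : ℕ} {c : O → ℂ} {N₀ M₂ M₃ B X : ℝ} (t₂ t₃ R : ℝ) {z : ℂ} (hz : |z.re| ≤ 3)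
    (hN : 0 < N₀) (h₂ : 0 < M₂) (h₃ : 0 < M₃) (hB : 0 < B) (hB' : B ≤ N₀ * M₂ * M₃) (hX : N₀ * M₂ * M₃ ≤ X)
    (hc : Dv k c) (hs : ∀ n, c n ≠ 0 → N₀ < nm n ∧ nm n ≤ 2 * N₀) :
    ∃ (w : ℂ) (c' : O → ℂ), ‖w‖ ≤ 8 * Real.exp 9 * (X / B) ^ 3 ∧ Dv k c' ∧
      (∀ n, c' n ≠ 0 → nm n ≤ 2 * N₀) ∧ ∀ b, Prim b →
        cv c (cv (plc l M₂ t₂ R) (plc l M₃ t₃ R)) b * ((nm b / B : ℝ) : ℂ) ^ z =
          w * G3 l c' M₂ (t₂ + z.im) M₃ (t₃ + z.im) z.re R b := by
  obtain ⟨u₂, hu₂, e₂⟩ := plc_twist l h₂ t₂ R hz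
  obtain ⟨u₃, hu₃, e₃⟩ := plc_twist l h₃ t₃ R hz
  have hz3 : z.re ≤ 3 := (abs_le.1 hz).2
  have hP : 0 < N₀ * M₂ * M₃ := by positivity
  refine ⟨8 * u₂ * u₃ * ((N₀ * M₂ * M₃ / B : ℝ) : ℂ) ^ z,
    fun n => c n * ((nm n / N₀ : ℝ) : ℂ) ^ z / 8, ?_, fun n => ?_, fun n hn => ?_, fun b hb => ?_⟩
  · have h1 : 1 ≤ N₀ * M₂ * M₃ / B := (one_le_div hB).2 hB'
    have h2 : ‖((N₀ * M₂ * M₃ / B : ℝ) : ℂ) ^ z‖ ≤ (X / B) ^ 3 := by
      rw [Complex.norm_cpow_eq_rpow_re_of_pos (div_pos hP hB)]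
      calc (N₀ * M₂ * M₃ / B) ^ z.re ≤ (N₀ * M₂ * M₃ / B) ^ ((3 : ℕ) : ℝ) :=
            Real.rpow_le_rpow_of_exponent_le h1 (by exact_mod_cast hz3)
        _ = (N₀ * M₂ * M₃ / B) ^ 3 := Real.rpow_natCast _ _
        _ ≤ (X / B) ^ 3 := by gcongr
    have h3 : Real.exp 9 = Real.exp (9 / 2) * Real.exp (9 / 2) := by
      rw [← Real.exp_add]; norm_num
    rw [norm_mul, norm_mul, norm_mul, h3, ← mul_assoc]
    have h8 : ‖(8 : ℂ)‖ = 8 := by simp
    rw [h8]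
    gcongr
  · by_cases h0 : c n = 0
    · simp only [h0, zero_mul, zero_div, norm_zero]
      exact pow_nonneg (dn_nonneg n) _
    · obtain ⟨h1, h2⟩ := hs n h0
      have h3 : 1 ≤ nm n / N₀ := (one_le_div hN).2 h1.le
      have h4 : nm n / N₀ ≤ 2 := (div_le_iff₀ hN).2 h2
      have h5 : ‖((nm n / N₀ : ℝ) : ℂ) ^ z‖ ≤ 8 := by
        rw [Complex.norm_cpow_eq_rpow_re_of_pos (by linarith)]
        calc (nm n / N₀) ^ z.re ≤ (nm n / N₀) ^ ((3 : ℕ) : ℝ) :=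
              Real.rpow_le_rpow_of_exponent_le h3 (by exact_mod_cast hz3)
          _ = (nm n / N₀) ^ 3 := Real.rpow_natCast _ _
          _ ≤ 2 ^ 3 := by gcongr
          _ = 8 := by norm_num
      have h8 : ‖(8 : ℂ)‖ = 8 := by simp
      rw [norm_div, norm_mul, h8, div_le_iff₀ (by norm_num)]
      exact mul_le_mul (hc n) h5 (norm_nonneg _) (pow_nonneg (dn_nonneg n) _)
  · refine (hs n fun h0 => hn ?_).2
    simp only [h0, zero_mul, zero_div]
  · unfold G3 cv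
    rw [Finset.sum_mul, Finset.mul_sum]
    refine Finset.sum_congr rfl fun p hp => ?_
    obtain ⟨hp1, -, hp3⟩ := mem_anti.1 hp
    rw [Finset.mul_sum, Finset.mul_sum, Finset.mul_sum, Finset.sum_mul]
    refine Finset.sum_congr rfl fun q hq => ?_
    obtain ⟨hq1, hq2, hq3⟩ := mem_anti.1 hq
    have a0 := (div_pos hP hB).le
    have a1 := (div_pos (nm_pos hp1.ne_zero) hN).le
    have a2 := (div_pos (nm_pos hq1.ne_zero) h₂).le
    have a3 := (div_pos (nm_pos hq2.ne_zero) h₃).le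
    have hn : nm b / B =
        N₀ * M₂ * M₃ / B * (nm p.1 / N₀ * (nm q.1 / M₂ * (nm q.2 / M₃))) := by
      rw [← hp3, ← hq3, nm_mul, nm_mul]
      field_simp
    rw [hn, Complex.ofReal_mul (N₀ * M₂ * M₃ / B),
      Complex.mul_cpow_ofReal_nonneg a0 (by positivity), Complex.ofReal_mul (nm p.1 / N₀),
      Complex.mul_cpow_ofReal_nonneg a1 (by positivity), Complex.ofReal_mul (nm q.1 / M₂),
      Complex.mul_cpow_ofReal_nonneg a2 a3]
    have f₂ := e₂ q.1 hq1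
    have f₃ := e₃ q.2 hq2
    calc c p.1 * (plc l M₂ t₂ R q.1 * plc l M₃ t₃ R q.2) * (((N₀ * M₂ * M₃ / B : ℝ) : ℂ) ^ z *
          (((nm p.1 / N₀ : ℝ) : ℂ) ^ z * (((nm q.1 / M₂ : ℝ) : ℂ) ^ z * ((nm q.2 / M₃ : ℝ) : ℂ) ^ z)))
        = c p.1 * ((N₀ * M₂ * M₃ / B : ℝ) : ℂ) ^ z * ((nm p.1 / N₀ : ℝ) : ℂ) ^ z *
          ((plc l M₂ t₂ R q.1 * ((nm q.1 / M₂ : ℝ) : ℂ) ^ z) *
            (plc l M₃ t₃ R q.2 * ((nm q.2 / M₃ : ℝ) : ℂ) ^ z)) := by ring
      _ = _ := by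
        rw [f₂, f₃]
        ring

end Crest.Agent.R12
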