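import Crest.Agent.R12.QR.Exp
import Crest.Agent.R12.QR.Pl

/-!
Row 12, block QB, dual rows (owner helper72): small labels (moments).
-/

set_option autoImplicit false

namespace Crest.Agent.R12

open Crest.Agent.R17
open scoped ComplexConjugate

/-- With `f = ms b a c` (supported on `N n ≤ N`): `TS κ X f = TS κ (N²) f`, `(TS f)² = TS κ (N²) (cv f f)` (`TS_cv`),
`‖cv f f n‖ ≤ C Y^θ'`; `StAllG` with `M = N²`, `F = 1`, `s = 1`, `Q = 1/2` and the coefficients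
`[Prim n] cv f f n / W`; `(1/2)^(-3/10) ≤ 2`.  Reusable for QA. -/
theorem c_four (h4 : StAllG) (k : ℕ) {θ : ℝ} (hθ : 0 < θ) : ∃ C : ℝ, 0 < C ∧
    ∀ (Y X N V : ℝ) (c : O → ℂ) (S : Finset O) (b a : O), 1 ≤ N → N ≤ X → N ≤ Y → 1 ≤ V → V ≤ Y →
    Dv k c → (∀ n, c n ≠ 0 → nm n ≤ N) → Prim b → (∀ κ ∈ S, κ ≠ 0 ∧ nm κ ≤ V) →
    ∑ κ ∈ S, ‖TS κ X (ms b a c)‖ ^ 4 ≤
      C * Y ^ θ * ((V + V ^ (1 / 3 : ℝ) * N ^ 2 + (V * N ^ 2) ^ (2 / 3 : ℝ)) * N ^ 2) := by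
  have hη : 0 < θ / 11 := by positivity
  obtain ⟨C₁, hC₁, h₁⟩ := dn_pow_le k hη
  obtain ⟨C₂, hC₂, h₂⟩ := dn_pow_le 1 hη
  obtain ⟨C₃, h₃⟩ := h4 _ hη
  refine ⟨2 * (C₂ * C₁ ^ 2) ^ 2 * (|C₃| + 1), by positivity,
    fun Y X N V c S b a hN hNX hNY hV hVY hc hs hb hS => ?_⟩
  set f := ms b a c with hf
  set y := Y ^ (θ / 11) with hy
  have hY : 1 ≤ Y := hN.trans hNY
  have hy1 : 1 ≤ y := Real.one_le_rpow hY hη.le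
  have hb1 := one_le_nm hb.ne_zero
  have hfc : ∀ n, f n ≠ 0 → f n = c (b * n) := fun n hn => by
    simp only [hf, ms] at hn ⊢
    split_ifs at hn ⊢ with h
    · rfl
    · exact absurd rfl hn
  have hfs : ∀ n, f n ≠ 0 → nm n ≤ N := fun n hn => by
    have h1 := hs _ (hfc n hn ▸ hn)
    rw [nm_mul] at h1
    have := nm_nonneg n
    nlinarith
  have hfb : ∀ n, Prim n → ‖f n‖ ≤ C₁ * y := fun n hn => by
    by_cases h : f n = 0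
    · rw [h, norm_zero]; positivity
    · have h1 := hs _ (hfc n h ▸ h)
      rw [hfc n h]
      refine (hc _).trans ((h₁ _ (mul_ne_zero hb.ne_zero hn.ne_zero)).trans ?_)
      exact mul_le_mul_of_nonneg_left
        (Real.rpow_le_rpow (nm_nonneg _) (h1.trans hNY) hη.le) hC₁.le
  have hN2 : N ≤ N ^ 2 := by nlinarith
  have hpr : ∀ m n, Prim m → Prim n → f m ≠ 0 → f n ≠ 0 → nm m * nm n ≤ N ^ 2 :=
    fun m n _ _ hm hn => by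
      rw [sq]
      exact mul_le_mul (hfs m hm) (hfs n hn) (nm_nonneg n) (by linarith)
  set W := C₂ * C₁ ^ 2 * y ^ 4 with hW
  have hW0 : 0 < W := by positivity
  have hcv : ∀ n, ‖cv f f n‖ ≤ W := fun n => by
    by_cases h : cv f f n = 0
    · rw [h, norm_zero]; exact hW0.le
    · obtain ⟨m₁, m₂, hm₁, hm₂, rfl, hf₁, hf₂⟩ := cv_supp h
      have hn := hm₁.mul hm₂
      have h1 : ‖cv f f (m₁ * m₂)‖ ≤ dn (m₁ * m₂) * (C₁ * y) ^ 2 := by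
        rw [cv, ← card_anti hn, ← nsmul_eq_mul]
        refine (norm_sum_le _ _).trans (Finset.sum_le_card_nsmul _ _ _ fun p hp => ?_)
        obtain ⟨hp1, hp2, -⟩ := mem_anti.1 hp
        rw [norm_mul, sq]
        exact mul_le_mul (hfb _ hp1) (hfb _ hp2) (norm_nonneg _) (by positivity)
      have h2 := h₂ _ hn.ne_zero
      rw [pow_one] at h2
      have h3 : nm (m₁ * m₂) ^ (θ / 11) ≤ y ^ 2 := by
        rw [hy, ← Real.rpow_natCast, ← Real.rpow_mul (by linarith), mul_comm (θ / 11),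
          Real.rpow_mul (by linarith), Real.rpow_natCast]
        refine Real.rpow_le_rpow (nm_nonneg _) ?_ hη.le
        rw [nm_mul]
        exact (hpr _ _ hm₁ hm₂ hf₁ hf₂).trans (pow_le_pow_left₀ (by linarith) hNY 2)
      calc _ ≤ dn (m₁ * m₂) * (C₁ * y) ^ 2 := h1
        _ ≤ C₂ * y ^ 2 * (C₁ * y) ^ 2 :=
            mul_le_mul_of_nonneg_right (h2.trans (mul_le_mul_of_nonneg_left h3 hC₂.le))
              (by positivity)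
        _ = W := by rw [hW]; ring
  have hTS : ∀ (κ : O) (Z : ℝ), N ≤ Z → TS κ Z f = TS κ N f := fun κ Z hZ => by
    unfold TS
    refine (Finset.sum_subset (fun n hn => ?_) fun n hn hn' => ?_).symm
    · exact mem_pball.2 ⟨(mem_pball.1 hn).1.trans hZ, (mem_pball.1 hn).2⟩
    · by_cases h : f n = 0
      · rw [h, zero_mul]
      · exact absurd (mem_pball.2 ⟨hfs n h, (mem_pball.1 hn).2⟩) hn'
  have hrow : ∀ κ : O, ‖TS κ X f‖ ^ 4 =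
      W ^ 2 * ‖∑ n ∈ pball (N ^ 2), cv f f n / (W : ℂ) * cb κ n‖ ^ 2 := fun κ => by
    have h1 : ∑ n ∈ pball (N ^ 2), cv f f n / (W : ℂ) * cb κ n = TS κ (N ^ 2) (cv f f) / W := by
      rw [TS, Finset.sum_div]
      exact Finset.sum_congr rfl fun n _ => by ring
    rw [h1, TS_cv κ _ hpr, hTS κ X hNX, hTS κ _ hN2, norm_div, norm_mul, Complex.norm_real,
      Real.norm_of_nonneg hW0.le]
    field_simp
  have hmain := h₃ V (N ^ 2) 1 (1 / 2) S (fun n => cv f f n / (W : ℂ)) hV (hN.trans hN2) le_rfl le_rfl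
    (fun κ hκ => ⟨(hS κ hκ).1, (hS κ hκ).2, fun k₀ m h => by
      have : k₀ ≠ 0 := by
        rintro rfl
        exact (hS κ hκ).1 (by rw [h, zero_mul])
      linarith [one_le_nm this]⟩)
    (fun n => by
      rw [norm_div, Complex.norm_real, Real.norm_of_nonneg hW0.le, div_le_one hW0]
      exact hcv n)
    (fun n _ => ⟨1, fun p hp h => absurd (isUnit_of_dvd_one h) hp.not_isUnit, one_dvd n, by simp⟩)
  rw [Real.one_rpow, div_one, mul_one] at hmain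
  have h5 : (1 / 2 : ℝ) ^ (-(3 / 10) : ℝ) ≤ 2 := by
    rw [Real.rpow_neg (by norm_num), one_div, Real.inv_rpow (by norm_num), inv_inv]
    calc (2 : ℝ) ^ (3 / 10 : ℝ) ≤ 2 ^ (1 : ℝ) :=
          Real.rpow_le_rpow_of_exponent_le (by norm_num) (by norm_num)
      _ = 2 := Real.rpow_one 2
  have h6 : (V * N ^ 2) ^ (θ / 11) ≤ y ^ 3 := by
    rw [hy, ← Real.rpow_natCast (Y ^ (θ / 11)), ← Real.rpow_mul (by linarith), mul_comm (θ / 11),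
      Real.rpow_mul (by linarith), Real.rpow_natCast]
    refine Real.rpow_le_rpow (by positivity) ?_ hη.le
    calc V * N ^ 2 ≤ Y * Y ^ 2 :=
          mul_le_mul hVY (pow_le_pow_left₀ (by linarith) hNY 2) (by positivity) (by linarith)
      _ = Y ^ 3 := by ring
  have h7 : Y ^ θ = y ^ 11 := by
    rw [hy, ← Real.rpow_natCast, ← Real.rpow_mul (by linarith)]
    congr 1
    push_cast
    ring
  set B := V + V ^ (1 / 3 : ℝ) * N ^ 2 + (V * N ^ 2) ^ (2 / 3 : ℝ) with hB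
  set B' := V + V ^ (1 / 3 : ℝ) * (1 / 2 : ℝ) ^ (-(3 / 10) : ℝ) * N ^ 2 +
    (V * N ^ 2) ^ (2 / 3 : ℝ) with hB'
  have hB0 : 0 ≤ B' := by positivity
  have hBB : B' ≤ 2 * B := by
    have h8 : 0 ≤ V ^ (1 / 3 : ℝ) * N ^ 2 := by positivity
    have h9 : 0 ≤ (V * N ^ 2) ^ (2 / 3 : ℝ) := by positivity
    have := mul_le_mul_of_nonneg_left h5 h8
    rw [hB, hB']
    nlinarith
  have h10 : C₃ * (V * N ^ 2) ^ (θ / 11) * B' * N ^ 2 ≤ (|C₃| + 1) * y ^ 3 * (2 * B) * N ^ 2 := by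
    refine mul_le_mul_of_nonneg_right (mul_le_mul (mul_le_mul ?_ h6 (by positivity)
      (by positivity)) hBB hB0 (by positivity)) (by positivity)
    linarith [le_abs_self C₃]
  rw [Finset.sum_congr rfl fun κ _ => hrow κ, ← Finset.mul_sum, h7]
  calc _ ≤ W ^ 2 * ((|C₃| + 1) * y ^ 3 * (2 * B) * N ^ 2) :=
        mul_le_mul_of_nonneg_left (hmain.trans h10) (by positivity)
    _ = _ := by rw [hW]; ring

theorem momb_eq {P V : ℝ} (hP : 0 < P) (hV : 0 ≤ V) :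
    P * (V + V ^ 4 / P + (V * (V ^ 4 / P)) ^ (2 / 3 : ℝ)) =
      P * V + V ^ 4 + P ^ (1 / 3 : ℝ) * (V * V ^ 4) ^ (2 / 3 : ℝ) := by
  have h1 : P = P ^ (1 / 3 : ℝ) * P ^ (2 / 3 : ℝ) := by
    rw [← Real.rpow_add hP]
    norm_num
  have h2 : 0 < P ^ (2 / 3 : ℝ) := Real.rpow_pos_of_pos hP _
  have h3 : P * (V * (V ^ 4 / P)) ^ (2 / 3 : ℝ) = P ^ (1 / 3 : ℝ) * (V * V ^ 4) ^ (2 / 3 : ℝ) := by
    rw [← mul_div_assoc, Real.div_rpow (by positivity) hP.le, ← mul_div_assoc, div_eq_iff h2.ne']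
    nth_rewrite 1 [h1]
    ring
  rw [mul_add, mul_add, h3, mul_div_cancel₀ _ hP.ne']

/-- `P (V + V⁴/P + (V · V⁴/P)^(2/3)) = P V + V⁴ + P^(1/3) V^(10/3)` is increasing in `P` -/
theorem mom_mono {P P' V : ℝ} (hP : 0 < P) (h : P ≤ P') (hV : 0 ≤ V) :
    P * (V + V ^ 4 / P + (V * (V ^ 4 / P)) ^ (2 / 3 : ℝ)) ≤
      P' * (V + V ^ 4 / P' + (V * (V ^ 4 / P')) ^ (2 / 3 : ℝ)) := by
  rw [momb_eq hP hV, momb_eq (hP.trans_le h) hV]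
  gcongr

theorem momb_scale {P c V : ℝ} (hP : 0 < P) (hc : 1 ≤ c) (hV : 0 ≤ V) :
    c * P * (V + V ^ 4 / (c * P) + (V * (V ^ 4 / (c * P))) ^ (2 / 3 : ℝ)) ≤
      c * (P * (V + V ^ 4 / P + (V * (V ^ 4 / P)) ^ (2 / 3 : ℝ))) := by
  have h : P ≤ c * P := le_mul_of_one_le_left hP.le hc
  have hc0 : 0 < c := by linarith
  rw [← mul_assoc]
  gcongr

theorem momb_exp : Real.exp 3 ≤ 32 := by
  have h : Real.exp 3 = Real.exp 1 ^ 3 := by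
    rw [← Real.exp_nat_mul]
    norm_num
  rw [h]
  exact (pow_le_pow_left₀ (Real.exp_pos _).le Real.exp_one_lt_three.le 3).trans (by norm_num)

/-- the range of the shifted centre -/
theorem momb_centre {Y M σ : ℝ} {b a : O} (hY : 2 ≤ Y) (hM : 1 ≤ M) (hMY : M ≤ Y) (hσ : |σ| ≤ 3) (hb : Prim b)
    (ha : Prim a) (hb' : nm b ≤ Y) (ha' : nm a ≤ Y) : 0 < M * Real.exp σ / (nm b * nm a) ∧
      M * Real.exp σ / (nm b * nm a) ≤ 32 * M ∧ (Y ^ 7)⁻¹ ≤ M * Real.exp σ / (nm b * nm a) ∧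
      M * Real.exp σ / (nm b * nm a) ≤ Y ^ 7 := by
  have h1 := one_le_nm hb.ne_zero
  have h2 := one_le_nm ha.ne_zero
  have hY0 : 0 < Y := by linarith
  have h3 : 1 ≤ nm b * nm a := one_le_mul_of_one_le_of_one_le h1 h2
  have h4 : Real.exp σ ≤ 32 := (Real.exp_le_exp.2 (abs_le.1 hσ).2).trans momb_exp
  have h5 : (32 : ℝ) ≤ Y ^ 5 := le_trans (by norm_num) (pow_le_pow_left₀ zero_le_two hY 5)
  have h6 : M * Real.exp σ / (nm b * nm a) ≤ 32 * M := by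
    refine (div_le_self (by positivity) h3).trans ?_
    rw [mul_comm]
    gcongr
  have h7 : (Y ^ 5)⁻¹ ≤ Real.exp σ := by
    refine (inv_anti₀ (Real.exp_pos 3) (momb_exp.trans h5)).trans ?_
    rw [← Real.exp_neg]
    exact Real.exp_le_exp.2 (abs_le.1 hσ).1
  refine ⟨by positivity, h6, ?_, h6.trans ?_⟩
  · calc (Y ^ 7)⁻¹ = 1 * (Y ^ 5)⁻¹ / (Y * Y) := by field_simp
      _ ≤ _ := by gcongr
  · calc 32 * M ≤ Y ^ 5 * Y := by gcongr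
      _ ≤ Y ^ 5 * Y * Y := le_mul_of_one_le_right (by positivity) (by linarith)
      _ = Y ^ 7 := by ring

theorem momb_four {x y x' y' τ D : ℝ} (hx : 0 ≤ x) (hy : 0 ≤ y) (hx' : 0 ≤ x') (hy' : 0 ≤ y') (hτ : 0 ≤ τ)
    (h1 : x' ≤ x + τ) (h2 : y' ≤ y + τ) (hD : τ * (x + y + τ) ≤ D) :
    (x' * y') ^ 4 ≤ 8 * (x * y) ^ 4 + 8 * D ^ 4 := by
  have h0 : 0 ≤ D := le_trans (by positivity) hD
  have h3 : x' * y' ≤ x * y + D := (mul_le_mul h1 h2 hy' (by positivity)).trans (by nlinarith)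
  refine (pow_le_pow_left₀ (by positivity) h3 4).trans ((add_pow_le (by positivity) h0 4).trans (le_of_eq ?_))
  norm_num
  ring

/-- `TS_plw` with `J = 2`: `‖TS‖ ≤ ‖PSc‖ + τ`, `τ = C Y⁻²`, `‖PSc‖ ≤ C Y` (`norm_PSc_le`), so
`((x+τ)(y+τ))⁴ ≤ 8 (x y)⁴ + C`, and there are at most `11 V ≤ 11 P V` rows.  `StMom` with `r = 4`, `Z = Y⁷`,
`ε = 10⁻⁷`, `M = ![M₂', M₂', M₃', M₃']`, `t = ![t₂, t₂, t₃, t₃]`, `M_i' = M_i e^σ / (N b_i N a_i) ≤ e³ M_i`;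
`mom_mono` up to `P' = e¹² (M₂ M₃)²`, and the value at `e¹² P` is at most `e¹²` times the value at `P`. -/
theorem pl_four (h5 : StMom) (j : ℤ) : ∃ E : ℕ, ∀ ε : ℝ, 0 < ε → ∃ C : ℝ, 0 < C ∧
    ∀ (Y R X M₂ M₃ σ t₂ t₃ V : ℝ) (S : Finset O) (b₂ a₂ b₃ a₃ : O), 2 ≤ Y → Y ^ ε ≤ R → X ≤ Y →
    1 ≤ M₂ → 1 ≤ M₃ → M₂ * R ≤ X → M₃ * R ≤ X → |σ| ≤ 3 → 1 ≤ V → V ≤ Y →
    Prim b₂ → Prim a₂ → Prim b₃ → Prim a₃ → nm b₂ ≤ Y → nm a₂ ≤ Y → nm b₃ ≤ Y → nm a₃ ≤ Y →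
    (∀ κ ∈ S, κ ≠ 0 ∧ nm κ ≤ V ∧ ¬ Cube κ) →
    ∑ κ ∈ S, (‖TS κ X (ms b₂ a₂ (plw j M₂ σ t₂ R))‖ * ‖TS κ X (ms b₃ a₃ (plw j M₃ σ t₃ R))‖) ^ 4 ≤
      C * Y ^ (1 / 1000000 : ℝ) * (1 + |t₂| + |t₃|) ^ E * ((M₂ * M₃) ^ 2 *
        (V + V ^ 4 / (M₂ * M₃) ^ 2 + (V * (V ^ 4 / (M₂ * M₃) ^ 2)) ^ (2 / 3 : ℝ))) := by
  obtain ⟨C₀, H₀⟩ := h5 j 4 (1 / 10000000) (by norm_num) (by norm_num)
  obtain ⟨C₂, hC₂, H₂⟩ := norm_PSc_le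
  refine ⟨⌈C₀⌉₊, fun ε hε => ?_⟩
  obtain ⟨C₁, hC₁, H₁⟩ := TS_plw 1 ε hε
  set D : ℝ := C₁ * (66 * C₂ + C₁) with hD
  refine ⟨8 * (|C₀| * 2 ^ ⌈C₀⌉₊ * 32 ^ 4) + 88 * D ^ 4, by positivity, ?_⟩
  intro Y R X M₂ M₃ σ t₂ t₃ V S b₂ a₂ b₃ a₃ hY hR hX hM₂ hM₃ hX₂ hX₃ hσ hV hVY pb₂ pa₂ pb₃ pa₃ nb₂ na₂ nb₃ na₃ hS
  have hY1 : 1 ≤ Y := by linarith
  have hY0 : 0 < Y := by linarith
  have hR1 : 1 ≤ R := (Real.one_le_rpow hY1 hε.le).trans hR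
  have hY₂ : M₂ ≤ Y := (le_mul_of_one_le_right (by linarith) hR1).trans (hX₂.trans hX)
  have hY₃ : M₃ ≤ Y := (le_mul_of_one_le_right (by linarith) hR1).trans (hX₃.trans hX)
  obtain ⟨p₂, q₂, r₂, s₂⟩ := momb_centre hY hM₂ hY₂ hσ pb₂ pa₂ nb₂ na₂
  obtain ⟨p₃, q₃, r₃, s₃⟩ := momb_centre hY hM₃ hY₃ hσ pb₃ pa₃ nb₃ na₃
  set N₂ : ℝ := M₂ * Real.exp σ / (nm b₂ * nm a₂) with hN₂
  set N₃ : ℝ := M₃ * Real.exp σ / (nm b₃ * nm a₃) with hN₃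
  have hY7 : Y ≤ Y ^ 7 := le_self_pow₀ hY1 (by norm_num)
  have h1 := H₀ (Y ^ 7) V ![N₂, N₂, N₃, N₃] ![t₂, t₂, t₃, t₃] S (hY.trans hY7) hV (hVY.trans hY7)
    (fun i => by fin_cases i; exacts [⟨r₂, s₂⟩, ⟨r₂, s₂⟩, ⟨r₃, s₃⟩, ⟨r₃, s₃⟩]) hS
  simp only [Fin.prod_univ_four, Fin.sum_univ_four, Matrix.cons_val_zero, Matrix.cons_val_one, Matrix.cons_val] at h1
  set P : ℝ := (M₂ * M₃) ^ 2 with hP
  have hP1 : 1 ≤ P := one_le_pow₀ (one_le_mul_of_one_le_of_one_le hM₂ hM₃)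
  have hP0 : 0 < P := by linarith
  have hV0 : 0 ≤ V := by linarith
  set G : ℝ := P * (V + V ^ 4 / P + (V * (V ^ 4 / P)) ^ (2 / 3 : ℝ)) with hG
  set W : ℝ := Y ^ (1 / 1000000 : ℝ) * (1 + |t₂| + |t₃|) ^ ⌈C₀⌉₊ * G with hW
  have hT1 : 1 ≤ 1 + |t₂| + |t₃| := by linarith [abs_nonneg t₂, abs_nonneg t₃]
  have hVG : V ≤ G := by
    have : V ≤ V + V ^ 4 / P + (V * (V ^ 4 / P)) ^ (2 / 3 : ℝ) := by
      rw [add_assoc]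
      exact le_add_of_nonneg_right (by positivity)
    exact this.trans (le_mul_of_one_le_left (by positivity) hP1)
  have hGW : G ≤ W := le_mul_of_one_le_left (hV0.trans hVG)
    (one_le_mul_of_one_le_of_one_le (Real.one_le_rpow hY1 (by norm_num)) (one_le_pow₀ hT1))
  have h2 : N₂ * N₂ * N₃ * N₃ * (V + V ^ 4 / (N₂ * N₂ * N₃ * N₃) +
      (V * (V ^ 4 / (N₂ * N₂ * N₃ * N₃))) ^ (2 / 3 : ℝ)) ≤ 32 ^ 4 * G := by
    refine (mom_mono (by positivity) ?_ hV0).trans (momb_scale hP0 (by norm_num) hV0)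
    calc N₂ * N₂ * N₃ * N₃ ≤ 32 * M₂ * (32 * M₂) * (32 * M₃) * (32 * M₃) := by gcongr
      _ = 32 ^ 4 * P := by rw [hP]; ring
  have h3 : (Y ^ 7) ^ (1 / 10000000 : ℝ) ≤ Y ^ (1 / 1000000 : ℝ) := by
    rw [← Real.rpow_natCast, ← Real.rpow_mul hY0.le]
    exact Real.rpow_le_rpow_of_exponent_le hY1 (by norm_num)
  have h4 : (1 + (|t₂| + |t₂| + |t₃| + |t₃|)) ^ C₀ ≤ 2 ^ ⌈C₀⌉₊ * (1 + |t₂| + |t₃|) ^ ⌈C₀⌉₊ := by
    refine (Real.rpow_le_rpow_of_exponent_le (by linarith [abs_nonneg t₂, abs_nonneg t₃]) (Nat.le_ceil C₀)).trans ?_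
    rw [Real.rpow_natCast, ← mul_pow]
    exact pow_le_pow_left₀ (by positivity) (by linarith) _
  have h5 : ∑ κ ∈ S, (‖PSc j κ N₂ t₂‖ * ‖PSc j κ N₃ t₃‖) ^ 4 ≤ |C₀| * 2 ^ ⌈C₀⌉₊ * 32 ^ 4 * W := by
    refine le_trans (le_of_eq (Finset.sum_congr rfl fun κ _ => ?_)) (h1.trans ?_)
    · simp only [norm_mul]
      ring
    · rw [mul_assoc _ (N₂ * N₂ * N₃ * N₃)]
      calc _ ≤ |C₀| * Y ^ (1 / 1000000 : ℝ) * (2 ^ ⌈C₀⌉₊ * (1 + |t₂| + |t₃|) ^ ⌈C₀⌉₊) * (32 ^ 4 * G) := by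
            gcongr
            exact le_abs_self _
        _ = _ := by rw [hW]; ring
  have hx : ∀ (κ : O) (N M t : ℝ), 0 < N → N ≤ 32 * M → M ≤ Y → ‖PSc j κ N t‖ ≤ 33 * C₂ * Y :=
    fun κ N M t h1 h2 h3 => (H₂ j κ N t h1).trans (by nlinarith)
  have h6 : ∀ κ, (‖TS κ X (ms b₂ a₂ (plw j M₂ σ t₂ R))‖ * ‖TS κ X (ms b₃ a₃ (plw j M₃ σ t₃ R))‖) ^ 4 ≤
      8 * (‖PSc j κ N₂ t₂‖ * ‖PSc j κ N₃ t₃‖) ^ 4 + 8 * D ^ 4 := fun κ => by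
    refine momb_four (norm_nonneg _) (norm_nonneg _) (norm_nonneg _) (norm_nonneg _) (by positivity)
      (H₁ j κ b₂ a₂ M₂ σ t₂ R X Y pb₂ pa₂ hY1 hR (by linarith) hY₂ hX₂ hσ)
      (H₁ j κ b₃ a₃ M₃ σ t₃ R X Y pb₃ pa₃ hY1 hR (by linarith) hY₃ hX₃ hσ) ?_
    have e1 := hx κ N₂ M₂ t₂ p₂ q₂ hY₂
    have e2 := hx κ N₃ M₃ t₃ p₃ q₃ hY₃
    have e3 : C₁ * Y⁻¹ ≤ C₁ * Y := mul_le_mul_of_nonneg_left ((inv_le_one_of_one_le₀ hY1).trans hY1) hC₁.le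
    rw [Real.rpow_neg_one]
    calc C₁ * Y⁻¹ * (‖PSc j κ N₂ t₂‖ + ‖PSc j κ N₃ t₃‖ + C₁ * Y⁻¹)
        ≤ C₁ * Y⁻¹ * (33 * C₂ * Y + 33 * C₂ * Y + C₁ * Y) := by gcongr
      _ = D := by rw [hD]; field_simp; ring
  have h7 : (S.card : ℝ) ≤ 11 * W :=
    (card_le_of_nm_le hV0 fun κ hκ => ⟨(hS κ hκ).1, (hS κ hκ).2.1⟩).trans (by linarith)
  calc _ ≤ ∑ κ ∈ S, (8 * (‖PSc j κ N₂ t₂‖ * ‖PSc j κ N₃ t₃‖) ^ 4 + 8 * D ^ 4) := Finset.sum_le_sum fun κ _ => h6 κ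
    _ = 8 * ∑ κ ∈ S, (‖PSc j κ N₂ t₂‖ * ‖PSc j κ N₃ t₃‖) ^ 4 + S.card * (8 * D ^ 4) := by
        rw [Finset.sum_add_distrib, Finset.sum_const, nsmul_eq_mul, Finset.mul_sum]
    _ ≤ 8 * (|C₀| * 2 ^ ⌈C₀⌉₊ * 32 ^ 4 * W) + 11 * W * (8 * D ^ 4) := by gcongr
    _ = _ := by rw [hW]; ring

theorem mmc_pow {Y x e : ℝ} (hY : 0 < Y) (hx : 0 ≤ x) (h : x ≤ Y ^ e) {p : ℝ} (hp : 0 ≤ p) :
    x ^ p ≤ Y ^ (e * p) := by
  rw [Real.rpow_mul hY.le]; exact Real.rpow_le_rpow hx h hp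

theorem mmc_npow {Y x e : ℝ} (hY : 0 < Y) (hx : 0 ≤ x) (h : x ≤ Y ^ e) (p : ℕ) :
    x ^ p ≤ Y ^ (e * p) := by
  rw [← Real.rpow_natCast]; exact mmc_pow hY hx h (Nat.cast_nonneg p)

theorem mmc_mul {Y x y e f : ℝ} (hY : 0 < Y) (hy : 0 ≤ y) (h : x ≤ Y ^ e) (h' : y ≤ Y ^ f) :
    x * y ≤ Y ^ (e + f) := by
  rw [Real.rpow_add hY]; exact mul_le_mul h h' hy (Real.rpow_nonneg hY.le e)

/-- pure numerics.  `s = min (U/K) 1`, `V ≤ s Y^0.32321`; first bracket `≤ 3 s^(1/3) Y^0.44776`, second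
`≤ 3 s Y^0.63737`, `N P ≤ X`; `√(s^(4/3)) ≤ s^(1/2) ≤ (U/K)^(1/2)`; total exponent
`0.00001 + 0.0008 + 0.50001 + 0.54257`, and `1 ≤ L⁻¹ Y^0.0004`. -/
theorem mom_num {Y K X U L N P V : ℝ} (hY : 2 ≤ Y) (hK0 : 0 < K) (hK : K ≤ Y ^ (32001 / 100000 : ℝ))
    (hX : X ≤ Y ^ (50001 / 100000 : ℝ)) (hL : 1 ≤ L) (hL' : L ≤ Y ^ (1 / 2500 : ℝ)) (hU : 1 ≤ U)
    (hU' : U ≤ K * Y ^ (1 / 2500 : ℝ)) (hN : 1 ≤ N) (hN' : N ≤ Y ^ (17001 / 100000 : ℝ))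
    (hP : Y ^ (33 / 100 : ℝ) ≤ P) (hNP : N * P ≤ X) (hV : V = U * (Y ^ (1 / 2500 : ℝ)) ^ 7) :
    Y ^ (1 / 100000 : ℝ) * (Y ^ (1 / 2500 : ℝ)) ^ 2 *
      (Real.sqrt ((V + V ^ (1 / 3 : ℝ) * N ^ 2 + (V * N ^ 2) ^ (2 / 3 : ℝ)) * N ^ 2) *
        Real.sqrt (P ^ 2 * (V + V ^ 4 / P ^ 2 + (V * (V ^ 4 / P ^ 2)) ^ (2 / 3 : ℝ)))) ≤
      3 * tgt Y K U L := by
  have hY0 : 0 < Y := by linarith
  have hm : ∀ {x y : ℝ}, x ≤ y → Y ^ x ≤ Y ^ y := fun h =>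
    Real.rpow_le_rpow_of_exponent_le (by linarith) h
  have hv : 0 < U / K := by positivity
  obtain ⟨σ, hσ0, hσv, hσU⟩ : ∃ σ : ℝ, σ ≤ 0 ∧ Y ^ σ ≤ U / K ∧ U ≤ Y ^ (σ + 32041 / 100000) := by
    rcases le_total (U / K) 1 with h | h
    · have e := Real.rpow_logb hY0 (by linarith) hv
      refine ⟨Real.logb Y (U / K), Real.logb_nonpos (by linarith) hv.le h, e.le, ?_⟩
      calc U = U / K * K := by field_simp
        _ ≤ _ := mmc_mul hY0 hK0.le e.ge (hK.trans (hm (by norm_num)))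
    · exact ⟨0, le_rfl, by rwa [Real.rpow_zero],
        hU'.trans ((mmc_mul hY0 (by positivity) hK le_rfl).trans (hm (by norm_num)))⟩
  have hV0 : 0 < V := by rw [hV]; positivity
  have hV1 : V ≤ Y ^ (σ + 32321 / 100000) := by
    rw [hV]
    refine (mmc_mul hY0 (by positivity) hσU (mmc_npow hY0 (by positivity) le_rfl 7)).trans (hm ?_)
    push_cast; linarith
  have hP0 : 0 < P := lt_of_lt_of_le (by positivity) hP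
  have hN2 := mmc_npow hY0 (by linarith) hN' 2
  have hPi : P⁻¹ ≤ Y ^ (-(33 / 100) : ℝ) := by
    rw [Real.rpow_neg hY0.le]; exact inv_anti₀ (by positivity) hP
  have hVP := mmc_mul hY0 (by positivity) (mmc_npow hY0 hV0.le hV1 4) (mmc_npow hY0 (by positivity) hPi 2)
  rw [inv_pow, ← div_eq_mul_inv (V ^ 4)] at hVP
  push_cast at hN2 hVP
  have b1 : V + V ^ (1 / 3 : ℝ) * N ^ 2 + (V * N ^ 2) ^ (2 / 3 : ℝ) ≤
      3 * Y ^ (σ / 3 + 44776 / 100000) := by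
    have a1 := hV1.trans (hm (y := σ / 3 + 44776 / 100000) (by linarith))
    have a2 := (mmc_mul hY0 (by positivity) (mmc_pow hY0 hV0.le hV1 (p := 1 / 3) (by norm_num)) hN2).trans
      (hm (y := σ / 3 + 44776 / 100000) (by linarith))
    have a3 := (mmc_pow hY0 (by positivity) (mmc_mul hY0 (by positivity) hV1 hN2) (p := 2 / 3)
      (by norm_num)).trans (hm (y := σ / 3 + 44776 / 100000) (by linarith))
    linarith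
  have b2 : V + V ^ 4 / P ^ 2 + (V * (V ^ 4 / P ^ 2)) ^ (2 / 3 : ℝ) ≤ 3 * Y ^ (σ + 63737 / 100000) := by
    have a1 := hV1.trans (hm (y := σ + 63737 / 100000) (by linarith))
    have a2 := hVP.trans (hm (y := σ + 63737 / 100000) (by linarith))
    have a3 := (mmc_pow hY0 (by positivity) (mmc_mul hY0 (by positivity) hV1 hVP) (p := 2 / 3)
      (by norm_num)).trans (hm (y := σ + 63737 / 100000) (by linarith))
    linarith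
  have b3 := mmc_npow hY0 (by positivity) (hNP.trans hX) 2
  push_cast at b3
  have b4 : Real.sqrt ((V + V ^ (1 / 3 : ℝ) * N ^ 2 + (V * N ^ 2) ^ (2 / 3 : ℝ)) * N ^ 2) *
      Real.sqrt (P ^ 2 * (V + V ^ 4 / P ^ 2 + (V * (V ^ 4 / P ^ 2)) ^ (2 / 3 : ℝ))) ≤
      3 * Y ^ (σ / 2 + 10426 / 10000) := by
    rw [← Real.sqrt_mul (by positivity)]
    refine Real.sqrt_le_iff.2 ⟨by positivity, ?_⟩
    have c1 := (mmc_mul hY0 (by positivity) (mmc_mul hY0 (by positivity)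
      (le_refl (Y ^ (σ / 3 + 44776 / 100000))) (le_refl (Y ^ (σ + 63737 / 100000)))) b3).trans
      (hm (y := (σ / 2 + 10426 / 10000) + (σ / 2 + 10426 / 10000)) (by linarith))
    rw [Real.rpow_add hY0 (σ / 2 + 10426 / 10000)] at c1
    calc _ = (V + V ^ (1 / 3 : ℝ) * N ^ 2 + (V * N ^ 2) ^ (2 / 3 : ℝ)) *
          (V + V ^ 4 / P ^ 2 + (V * (V ^ 4 / P ^ 2)) ^ (2 / 3 : ℝ)) * (N * P) ^ 2 := by ring
      _ ≤ (3 * Y ^ (σ / 3 + 44776 / 100000)) * (3 * Y ^ (σ + 63737 / 100000)) * (N * P) ^ 2 := by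
          gcongr
      _ ≤ _ := by linarith
  have b5 : Y ^ (σ * (1 / 2)) ≤ (U / K) ^ (1 / 2 : ℝ) := by
    rw [Real.rpow_mul hY0.le]; exact Real.rpow_le_rpow (by positivity) hσv (by norm_num)
  have b6 : Y ^ (-(1 / 2500) : ℝ) ≤ L⁻¹ := by
    rw [Real.rpow_neg hY0.le]; exact inv_anti₀ (by linarith) hL'
  have b7 := (mmc_mul hY0 (by positivity) (mmc_mul hY0 (by positivity) (le_refl (Y ^ (1 / 100000 : ℝ)))
    (mmc_npow hY0 (by positivity) (le_refl (Y ^ (1 / 2500 : ℝ))) 2))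
    (le_refl (Y ^ (σ / 2 + 10426 / 10000)))).trans
    (hm (y := 10465 / 10000 + (-(1 / 2500) + σ * (1 / 2))) (by push_cast; linarith))
  rw [Real.rpow_add hY0 (10465 / 10000), Real.rpow_add hY0 (-(1 / 2500))] at b7
  have hL0 : 0 < L := by linarith
  have b8 : Y ^ (10465 / 10000 : ℝ) * (Y ^ (-(1 / 2500) : ℝ) * Y ^ (σ * (1 / 2))) ≤ tgt Y K U L := by
    refine mul_le_mul_of_nonneg_left (le_add_of_nonneg_of_le (by positivity)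
      (mul_le_mul b6 (b5.trans (le_add_of_nonneg_right (by positivity))) (by positivity)
        (by positivity))) (by positivity)
  calc _ ≤ Y ^ (1 / 100000 : ℝ) * (Y ^ (1 / 2500 : ℝ)) ^ 2 * (3 * Y ^ (σ / 2 + 10426 / 10000)) :=
        mul_le_mul_of_nonneg_left b4 (by positivity)
    _ ≤ _ := by linarith

theorem momd_cs {ι : Type*} (S : Finset ι) (x y : ι → ℝ) {A B : ℝ} (hA : ∑ i ∈ S, x i ^ 4 ≤ A)
    (hB : ∑ i ∈ S, y i ^ 4 ≤ B) : ∑ i ∈ S, (x i * y i) ^ 2 ≤ Real.sqrt A * Real.sqrt B := by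
  have h := Real.sum_mul_le_sqrt_mul_sqrt S (fun i => x i ^ 2) (fun i => y i ^ 2)
  simp only [← pow_mul] at h
  calc ∑ i ∈ S, (x i * y i) ^ 2 = ∑ i ∈ S, x i ^ 2 * y i ^ 2 := by simp only [mul_pow]
    _ ≤ _ := h
    _ ≤ _ := by gcongr

theorem momd_sqrt {C₁ C₂ y τ A B : ℝ} (h₁ : 0 ≤ C₁) (h₂ : 0 ≤ C₂) (hy : 0 ≤ y) (hτ : 1 ≤ τ) :
    Real.sqrt (C₁ * y * A) * Real.sqrt (C₂ * y * τ * B) ≤
      Real.sqrt C₁ * Real.sqrt C₂ * y * τ * (Real.sqrt A * Real.sqrt B) := by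
  have hτ0 : 0 ≤ τ := by linarith
  rw [Real.sqrt_mul (mul_nonneg h₁ hy), Real.sqrt_mul h₁, Real.sqrt_mul (by positivity : 0 ≤ C₂ * y * τ),
    Real.sqrt_mul (mul_nonneg h₂ hy), Real.sqrt_mul h₂]
  have e : Real.sqrt y * Real.sqrt y = y := Real.mul_self_sqrt hy
  have e' : Real.sqrt τ ≤ τ := by
    rw [Real.sqrt_le_left hτ0]
    nlinarith
  calc _ = Real.sqrt C₁ * Real.sqrt C₂ * (Real.sqrt y * Real.sqrt y) * Real.sqrt τ *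
        (Real.sqrt A * Real.sqrt B) := by ring
    _ ≤ _ := by rw [e]; gcongr

theorem momd_dn : ∃ C : ℝ, 0 < C ∧ ∀ (Y : ℝ) (l D : O), l ≠ 0 → D ≠ 0 → nm l ≤ Y → nm D ≤ Y →
    (dn l * dn D ^ 2) ^ 4 ≤ C * (Y ^ (1 / 1000000 : ℝ) * Y ^ (1 / 1000000 : ℝ)) := by
  obtain ⟨C₁, hC₁, h₁⟩ := dn_pow_le 4 (ε := 1 / 1000000) (by norm_num)
  obtain ⟨C₂, hC₂, h₂⟩ := dn_pow_le 8 (ε := 1 / 1000000) (by norm_num)
  refine ⟨C₁ * C₂, by positivity, fun Y l D hl hD hlY hDY => ?_⟩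
  have n₁ := nm_nonneg l
  have n₂ := nm_nonneg D
  have d₁ := dn_nonneg l
  have d₂ := dn_nonneg D
  have hY : 0 ≤ Y := n₁.trans hlY
  have q₁ : dn l ^ 4 ≤ C₁ * Y ^ (1 / 1000000 : ℝ) := (h₁ l hl).trans (by gcongr)
  have q₂ : dn D ^ 8 ≤ C₂ * Y ^ (1 / 1000000 : ℝ) := (h₂ D hD).trans (by gcongr)
  calc (dn l * dn D ^ 2) ^ 4 = dn l ^ 4 * dn D ^ 8 := by ring
    _ ≤ (C₁ * Y ^ (1 / 1000000 : ℝ)) * (C₂ * Y ^ (1 / 1000000 : ℝ)) := by gcongr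
    _ = _ := by ring

/-- `l2_RB`, `l2_three`; Cauchy–Schwarz `∑ (x y)² ≤ √(∑ x⁴) √(∑ y⁴)`; pass to the rows `S.image (κ ↦ κ h l³)`
(`Lab.row_inj`, `Lab.nm_row`, `cube_mul_cube_iff`), `V = U (Y^(1/2500))⁷ ≤ Y`; `c_four` (`N = 2 N₀`, `θ = 10⁻⁶`),
`pl_four`, `mom_num` -/
theorem mom_sum (h4 : StAllG) (h5 : StMom) (j : ℤ) : ∃ E : ℕ, ∀ (ε : ℝ) (k : ℕ), 0 < ε → ∃ C : ℝ, 0 < C ∧
    ∀ (Y R K X N₀ M₂ M₃ σ t₂ t₃ U : ℝ) (c : O → ℂ) (T S : Finset O) (l h : O),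
    Par ε k Y R K X N₀ M₂ M₃ c → Lab X l h → |σ| ≤ 3 → 1 ≤ U → U ≤ K * Y ^ (1 / 2500 : ℝ) →
    nm l ≤ Y ^ (1 / 2500 : ℝ) → (∀ d ∈ T, Prim d ∧ nm d ≤ Y ^ (1 / 2500 : ℝ)) →
    (∀ κ ∈ S, κ ≠ 0 ∧ nm κ ≤ U ∧ ¬ Cube (κ * h)) →
    ∑ κ ∈ S, ‖RB T (G3 j c M₂ t₂ M₃ t₃ σ R) X l (κ * h * l ^ 3)‖ ^ 2 ≤
      C * (1 + |t₂| + |t₃|) ^ E * tgt Y K U (nm l) := by
  classical
  obtain ⟨E, hE⟩ := pl_four h5 j
  refine ⟨E, fun ε k hε => ?_⟩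
  obtain ⟨C₂, hC₂, hpl⟩ := hE ε hε
  obtain ⟨C₁, hC₁, hc4⟩ := c_four h4 k (θ := 1 / 1000000) (by norm_num)
  obtain ⟨C₃, hC₃, hdn⟩ := momd_dn
  refine ⟨121 * C₃ * (Real.sqrt C₁ * Real.sqrt C₂) * 3, by positivity,
    fun Y R K X N₀ M₂ M₃ σ t₂ t₃ U c T S l h P H hσ hU hU' hl hT hS => ?_⟩
  have hY1 := P.one_le_Y
  have hY0 : 0 < Y := by linarith
  have hnum := fun V => mom_num (V := V) P.hY P.hK0 P.hK P.hX (one_le_nm H.ne_zero) hl hU hU'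
    (show 1 ≤ 2 * N₀ by linarith [P.hN]) P.N_le P.hP P.NM_le
  have hW7 : (Y ^ (1 / 2500 : ℝ)) ^ 8 = Y ^ (8 / 2500 : ℝ) := by
    rw [← Real.rpow_natCast, ← Real.rpow_mul hY0.le]
    norm_num
  obtain ⟨W, hW⟩ : ∃ W, W = Y ^ (1 / 2500 : ℝ) := ⟨_, rfl⟩
  have hW1 : 1 ≤ W := by rw [hW]; exact Real.one_le_rpow hY1 (by norm_num)
  rw [← hW] at hnum hW7 hU' hl hT
  obtain ⟨V, hV⟩ : ∃ V, V = U * W ^ 7 := ⟨_, rfl⟩
  replace hnum := hnum V hV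
  have hV1 : 1 ≤ V := by
    rw [hV]
    exact one_le_mul_of_one_le_of_one_le hU (one_le_pow₀ hW1)
  have hW8 : W ^ 8 ≤ Y := by
    rw [hW7]
    calc Y ^ (8 / 2500 : ℝ) ≤ Y ^ (1 : ℝ) := Real.rpow_le_rpow_of_exponent_le hY1 (by norm_num)
      _ = Y := Real.rpow_one Y
  have hW2 : W ^ 2 ≤ Y := (pow_le_pow_right₀ hW1 (by norm_num)).trans hW8
  have hWY : W ≤ Y := by nlinarith
  have hVY : V ≤ Y := by
    have hK := P.hK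
    have hK0 := P.hK0
    calc V = U * W ^ 7 := hV
      _ ≤ K * W * W ^ 7 := by gcongr
      _ = K * W ^ 8 := by ring
      _ ≤ Y ^ (32001 / 100000 : ℝ) * Y ^ (8 / 2500 : ℝ) := by rw [hW7]; gcongr
      _ = Y ^ (32001 / 100000 + 8 / 2500 : ℝ) := (Real.rpow_add hY0 _ _).symm
      _ ≤ Y ^ (1 : ℝ) := Real.rpow_le_rpow_of_exponent_le hY1 (by norm_num)
      _ = Y := Real.rpow_one Y
  obtain ⟨S', hS'⟩ : ∃ S' : Finset O, S' = S.image fun κ => κ * h * l ^ 3 := ⟨_, rfl⟩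
  have hsum : ∀ F : O → ℝ, ∑ κ ∈ S, F (κ * h * l ^ 3) = ∑ κ ∈ S', F κ := fun F => by
    rw [hS', Finset.sum_image fun a _ b _ e => H.row_inj e]
  have hS'' : ∀ κ ∈ S', κ ≠ 0 ∧ nm κ ≤ V ∧ ¬ Cube κ := by
    intro κ hκ
    rw [hS'] at hκ
    obtain ⟨κ₀, hκ₀, rfl⟩ := Finset.mem_image.1 hκ
    obtain ⟨r₁, r₂, r₃⟩ := hS κ₀ hκ₀
    refine ⟨H.row_ne_zero r₁, (H.nm_row κ₀).trans ?_, fun hc => r₃ ((cube_mul_cube_iff H.ne_zero).1 hc)⟩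
    have := nm_nonneg l
    rw [hV]
    gcongr
  obtain ⟨τ, hτ⟩ : ∃ τ : ℝ, τ = (1 + |t₂| + |t₃|) ^ E := ⟨_, rfl⟩
  have hτ1 : 1 ≤ τ := by
    rw [hτ]
    exact one_le_pow₀ (by linarith [abs_nonneg t₂, abs_nonneg t₃])
  obtain ⟨y, hy⟩ : ∃ y : ℝ, y = Y ^ (1 / 1000000 : ℝ) := ⟨_, rfl⟩
  have hy0 : 0 < y := by rw [hy]; positivity
  have hy3 : y * y * y ≤ Y ^ (1 / 100000 : ℝ) := by
    rw [hy, ← Real.rpow_add hY0, ← Real.rpow_add hY0]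
    exact Real.rpow_le_rpow_of_exponent_le hY1 (by norm_num)
  obtain ⟨Q, hQ⟩ : ∃ Q : ℝ, Q =
      Real.sqrt ((V + V ^ (1 / 3 : ℝ) * (2 * N₀) ^ 2 + (V * (2 * N₀) ^ 2) ^ (2 / 3 : ℝ)) * (2 * N₀) ^ 2) *
        Real.sqrt ((M₂ * M₃) ^ 2 * (V + V ^ 4 / (M₂ * M₃) ^ 2 +
          (V * (V ^ 4 / (M₂ * M₃) ^ 2)) ^ (2 / 3 : ℝ))) := ⟨_, rfl⟩
  have hQ0 : 0 ≤ Q := by rw [hQ]; positivity
  rw [← hQ] at hnum
  have key : ∀ d ∈ T, ∑ κ ∈ S, ‖TS (κ * h * l ^ 3) X (ms l (d ^ 2) (G3 j c M₂ t₂ M₃ t₃ σ R))‖ ^ 2 ≤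
      C₃ * (y * y) * (Real.sqrt C₁ * Real.sqrt C₂ * y * τ * Q) := by
    intro d hd
    obtain ⟨pd, nd⟩ := hT d hd
    have nD : nm (d ^ 2) ≤ Y := by
      rw [nm_pow]
      have := nm_nonneg d
      exact le_trans (by gcongr) hW2
    have q := l2_three H.hl.1 (pd.pow 2) S (fun κ => κ * h * l ^ 3)
      (fun κ _ => Dvd.dvd.mul_left (dvd_pow_self l (by norm_num)) _) X
      (f := c) (g := plw j M₂ σ t₂ R) (g' := plw j M₃ σ t₃ R)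
      (fun a b _ _ => P.supp₁ j σ t₂ t₃ a b) (fun a b _ _ => P.supp₂₃ j σ t₂ t₃ a b)
      (H := Real.sqrt C₁ * Real.sqrt C₂ * y * τ * Q) ?_
    · refine q.trans ?_
      have := hdn Y l (d ^ 2) H.ne_zero (pd.pow 2).ne_zero (hl.trans hWY) nD
      rw [← hy] at this
      gcongr
    intro l₁ l₂ l₃ a₁ a₂ a₃ p₁ p₂ p₃ _ r₂ r₃ e _ e₂ e₃
    have n₂ : nm l₂ ≤ Y := (nm_le_of_dvd ⟨l₁ * l₃, by rw [← e]; ring⟩ H.ne_zero).trans (hl.trans hWY)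
    have n₃ : nm l₃ ≤ Y := (nm_le_of_dvd ⟨l₁ * l₂, by rw [← e]; ring⟩ H.ne_zero).trans (hl.trans hWY)
    have m₂ : nm a₂ ≤ Y := (nm_le_of_dvd e₂ (pd.pow 2).ne_zero).trans nD
    have m₃ : nm a₃ ≤ Y := (nm_le_of_dvd e₃ (pd.pow 2).ne_zero).trans nD
    have u₁ := hc4 Y X (2 * N₀) V c S' l₁ a₁ (by linarith [P.hN]) P.N_le_X (P.N_le_X.trans P.X_le) hV1 hVY
      P.hc P.hs p₁ fun κ hκ => ⟨(hS'' κ hκ).1, (hS'' κ hκ).2.1⟩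
    have u₂ := hpl Y R X M₂ M₃ σ t₂ t₃ V S' l₂ a₂ l₃ a₃ P.hY P.hR P.X_le P.hM₂ P.hM₃ P.M₂R_le P.M₃R_le hσ
      hV1 hVY p₂ r₂ p₃ r₃ n₂ m₂ n₃ m₃ hS''
    rw [← hy] at u₁ u₂
    rw [← hτ] at u₂
    rw [hsum fun κ => (‖TS κ X (ms l₁ a₁ c)‖ * (‖TS κ X (ms l₂ a₂ (plw j M₂ σ t₂ R))‖ *
      ‖TS κ X (ms l₃ a₃ (plw j M₃ σ t₃ R))‖)) ^ 2, hQ]
    exact (momd_cs S' _ _ u₁ u₂).trans (momd_sqrt hC₁.le hC₂.le hy0.le hτ1)
  refine (l2_RB T S _ X l (fun κ => κ * h * l ^ 3) key).trans ?_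
  have hcard : (T.card : ℝ) ≤ 11 * W :=
    card_le_of_nm_le (by linarith) fun d hd => ⟨(hT d hd).1.ne_zero, (hT d hd).2⟩
  rw [← hτ]
  calc (T.card : ℝ) ^ 2 * (C₃ * (y * y) * (Real.sqrt C₁ * Real.sqrt C₂ * y * τ * Q))
      ≤ (11 * W) ^ 2 * (C₃ * (y * y) * (Real.sqrt C₁ * Real.sqrt C₂ * y * τ * Q)) := by gcongr
    _ = 121 * C₃ * (Real.sqrt C₁ * Real.sqrt C₂) * τ * (y * y * y * W ^ 2 * Q) := by ring
    _ ≤ 121 * C₃ * (Real.sqrt C₁ * Real.sqrt C₂) * τ * (Y ^ (1 / 100000 : ℝ) * W ^ 2 * Q) := by gcongr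
    _ ≤ 121 * C₃ * (Real.sqrt C₁ * Real.sqrt C₂) * τ * (3 * tgt Y K U (nm l)) := by gcongr
    _ = _ := by ring

end Crest.Agent.R12
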