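import Crest.Agent.R12.QR.Exp
import Crest.Agent.R12.QR.Pl

/-!
Row 12, block QB, dual rows (owner helper72): rows close to cubes (Pólya–Vinogradov).
-/

set_option autoImplicit false

namespace Crest.Agent.R12

open Crest.Agent.R17
open scoped ComplexConjugate

/-- trivially: the terms have `N n ≤ N (b n) ≤ 2 N₀ ≤ Y^0.17001` (`Par.N_le`) and size `≤ dn (b n)^k ≤ C Y^(10⁻⁵)` -/
theorem TS_c_le (k : ℕ) : ∃ C : ℝ, 0 < C ∧ ∀ (ε Y R K X N₀ M₂ M₃ : ℝ) (c : O → ℂ) (κ b a : O),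
    Par ε k Y R K X N₀ M₂ M₃ c → Prim b → ‖TS κ X (ms b a c)‖ ≤ C * Y ^ (17002 / 100000 : ℝ) := by
  classical
  obtain ⟨C, hC, h⟩ := dn_pow_le k (ε := 1 / 100000) (by norm_num)
  refine ⟨11 * C, by positivity, fun ε Y R K X N₀ M₂ M₃ c κ b a H hb => ?_⟩
  have hY := H.one_le_Y
  have hY0 : 0 < Y := by linarith
  have hZ : 1 ≤ Y ^ (17001 / 100000 : ℝ) := Real.one_le_rpow hY (by norm_num)
  have hZY : Y ^ (17001 / 100000 : ℝ) ≤ Y := Real.rpow_le_self_of_one_le hY (by norm_num)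
  have key : ∀ n ∈ pball X, ‖ms b a c n * cb κ n‖ ≤
      if n ∈ ball (Y ^ (17001 / 100000 : ℝ)) then C * Y ^ (1 / 100000 : ℝ) else 0 := by
    intro n hn
    by_cases h0 : ms b a c n = 0
    · rw [h0, zero_mul, norm_zero]
      positivity
    have h1 : ms b a c n = c (b * n) := by
      unfold ms at h0 ⊢
      split_ifs at h0 ⊢ with h1
      · rfl
      · exact absurd rfl h0
    have hn0 := (mem_pball.1 hn).2.ne_zero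
    have h2 := (H.hs _ (h1 ▸ h0)).trans H.N_le
    have h3 : nm n ≤ nm (b * n) := nm_le_of_dvd (dvd_mul_left n b) (mul_ne_zero hb.ne_zero hn0)
    rw [if_pos (mem_ball.2 (h3.trans h2)), norm_mul, h1]
    refine (mul_le_of_le_one_right (norm_nonneg _) (norm_cb_le κ n)).trans ((H.hc _).trans
      ((h _ (mul_ne_zero hb.ne_zero hn0)).trans ?_))
    exact mul_le_mul_of_nonneg_left
      (Real.rpow_le_rpow (nm_nonneg _) (h2.trans hZY) (by norm_num)) hC.le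
  refine (norm_sum_le _ _).trans ((Finset.sum_le_sum key).trans ?_)
  rw [Finset.sum_ite_mem, Finset.sum_const, nsmul_eq_mul]
  calc _ ≤ 11 * Y ^ (17001 / 100000 : ℝ) * (C * Y ^ (1 / 100000 : ℝ)) := by
        gcongr
        refine le_trans ?_ (card_ball_le hZ)
        exact_mod_cast Finset.card_le_card Finset.inter_subset_right
    _ = 11 * C * (Y ^ (17001 / 100000 : ℝ) * Y ^ (1 / 100000 : ℝ)) := by ring
    _ = _ := by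
        rw [← Real.rpow_add hY0]
        norm_num

/-- `pfs_mul`; `rad (k₀ h) ∣ rad k₀ · l` (a squarefree product of primes each dividing `k₀` or `l`), or
directly `∏_{p ∈ A ∪ B} N p ≤ ∏_A ∏_B` -/
theorem nm_rad_le {X : ℝ} {l h k₀ : O} (H : Lab X l h) (h0 : k₀ ≠ 0) :
    nm (rad (k₀ * h)) ≤ nm k₀ * nm l := by
  rw [← nm_mul]
  refine nm_le_of_dvd ?_ (mul_ne_zero h0 H.hl.1.ne_zero)
  rw [← (squarefree_rad _).dvd_pow_iff_dvd (n := 4) (by norm_num), mul_pow]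
  exact (rad_dvd _).trans (mul_dvd_mul (dvd_pow_self _ (by norm_num)) H.hhl)

/-- `TS_plw` (`J = 0`) and `StPV` with `Z = Y⁷`, `ε = 10⁻⁷`: the row is `(k₀ h) (m l)³`, non-cube by
`cube_mul_cube_iff`, of norm `≤ Y · Y^(7 · 0.50001)`; `Y⁻⁷ ≤ M e^σ / (N b N a) ≤ Y⁷` (`e³ ≤ 32 ≤ Y⁵`);
`1 ≤ N k₀ N l`; `E = ⌈C⌉₊`. -/
theorem TS_near (h6 : StPV) (j : ℤ) : ∃ E : ℕ, ∀ ε : ℝ, 0 < ε → ∃ C : ℝ, 0 < C ∧
    ∀ (Y R X M σ t : ℝ) (l h k₀ m b a : O), 2 ≤ Y → Y ^ ε ≤ R → X ≤ Y ^ (50001 / 100000 : ℝ) → 1 ≤ M →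
    M * R ≤ X → |σ| ≤ 3 → Lab X l h → k₀ ≠ 0 → m ≠ 0 → nm (k₀ * m ^ 3) ≤ Y → ¬ Cube (k₀ * m ^ 3 * h) →
    Prim b → Prim a → nm b ≤ Y → nm a ≤ Y →
    ‖TS (k₀ * m ^ 3 * h * l ^ 3) X (ms b a (plw j M σ t R))‖ ≤
      C * Y ^ (1 / 1000000 : ℝ) * (1 + |t|) ^ E * Real.sqrt (nm k₀ * nm l) := by
  obtain ⟨C₀, h₀⟩ := h6 j (1 / 10000000) (by norm_num)
  refine ⟨⌈C₀⌉₊, fun ε hε => ?_⟩
  obtain ⟨C₁, hC₁, h₁⟩ := TS_plw 0 ε hε
  have hm0 : 0 ≤ max C₀ 0 := le_max_right _ _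
  refine ⟨max C₀ 0 + C₁, by positivity, ?_⟩
  intro Y R X M σ t l h k₀ m b a hY hR hX hM hMR hσ H hk hm hkm hnc hb ha hbY haY
  have hY1 : 1 ≤ Y := by linarith
  have hY0 : 0 < Y := by linarith
  have hR1 : 1 ≤ R := (Real.one_le_rpow hY1 hε.le).trans hR
  have hXY : X ≤ Y := hX.trans (by
    simpa using Real.rpow_le_rpow_of_exponent_le hY1 (show (50001 / 100000 : ℝ) ≤ 1 by norm_num))
  have hMY : M ≤ Y := by nlinarith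
  have hl0 : l ≠ 0 := H.hl.1.ne_zero
  have hh0 : h ≠ 0 := H.hh.ne_zero
  have hb1 := one_le_nm hb.ne_zero
  have ha1 := one_le_nm ha.ne_zero
  have hk1 := one_le_nm hk
  have hl1 := one_le_nm hl0
  have e3 : Real.exp 3 ≤ Y ^ 5 := by
    have h1 : Real.exp 3 = Real.exp 1 ^ 3 := by rw [← Real.exp_nat_mul]; norm_num
    have h2 : Real.exp 1 ≤ 3 := Real.exp_one_lt_three.le
    calc Real.exp 3 ≤ 3 ^ 3 := by rw [h1]; gcongr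
      _ ≤ 2 ^ 5 := by norm_num
      _ ≤ Y ^ 5 := by gcongr
  obtain ⟨hσ1, hσ2⟩ := abs_le.1 hσ
  have eσ1 : Real.exp σ ≤ Y ^ 5 := (Real.exp_le_exp.2 hσ2).trans e3
  have eσ2 : 1 ≤ Real.exp σ * Y ^ 5 := by
    calc (1 : ℝ) ≤ Real.exp (σ + 3) := Real.one_le_exp (by linarith)
      _ = Real.exp σ * Real.exp 3 := Real.exp_add _ _
      _ ≤ Real.exp σ * Y ^ 5 := by gcongr
  have hZ : (2 : ℝ) ≤ Y ^ 7 := hY.trans (le_self_pow₀ hY1 (by norm_num))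
  have hba : 0 < nm b * nm a := by positivity
  have hlo : (Y ^ 7)⁻¹ ≤ M * Real.exp σ / (nm b * nm a) := by
    rw [inv_eq_one_div, div_le_div_iff₀ (by positivity) hba, one_mul]
    calc nm b * nm a ≤ Y * Y := by gcongr
      _ = 1 * 1 * (Y * Y) := by ring
      _ ≤ M * (Real.exp σ * Y ^ 5) * (Y * Y) := by gcongr
      _ = M * Real.exp σ * Y ^ 7 := by ring
  have hhi : M * Real.exp σ / (nm b * nm a) ≤ Y ^ 7 := by
    rw [div_le_iff₀ hba]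
    calc M * Real.exp σ ≤ Y * Y ^ 5 := by gcongr
      _ = Y ^ 6 * 1 * (1 * 1) := by ring
      _ ≤ Y ^ 6 * Y * (nm b * nm a) := by gcongr
      _ = Y ^ 7 * (nm b * nm a) := by ring
  have hrow : k₀ * m ^ 3 * h * l ^ 3 = k₀ * h * (m * l) ^ 3 := by ring
  have hnc' : ¬ Cube (k₀ * h) := by
    intro hc
    refine hnc ?_
    rw [show k₀ * m ^ 3 * h = k₀ * h * m ^ 3 by ring]
    exact (cube_mul_cube_iff hm).2 hc
  have hnm : nm (k₀ * h * (m * l) ^ 3) ≤ Y ^ 7 := by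
    rw [← hrow, nm_mul, nm_mul, nm_pow]
    have h1 : nm h ≤ nm l ^ 4 := by
      rw [← nm_pow]
      exact nm_le_of_dvd H.hhl (pow_ne_zero _ hl0)
    have h2 : nm l ^ 7 ≤ Y ^ 6 := by
      calc nm l ^ 7 ≤ (Y ^ (50001 / 100000 : ℝ)) ^ 7 := by
            gcongr
            exact H.hlX.trans hX
        _ = Y ^ ((50001 / 100000 : ℝ) * (7 : ℕ)) := by rw [Real.rpow_mul_natCast hY0.le]
        _ ≤ Y ^ ((6 : ℕ) : ℝ) := Real.rpow_le_rpow_of_exponent_le hY1 (by norm_num)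
        _ = Y ^ 6 := Real.rpow_natCast _ _
    calc nm (k₀ * m ^ 3) * nm h * nm l ^ 3 ≤ Y * nm l ^ 4 * nm l ^ 3 := by
          gcongr
          exact nm_nonneg _
      _ = Y * nm l ^ 7 := by ring
      _ ≤ Y * Y ^ 6 := by gcongr
      _ = Y ^ 7 := by ring
  have k1 := h₀ (Y ^ 7) _ t (k₀ * h) (m * l) hZ hlo hhi (mul_ne_zero hk hh0) (mul_ne_zero hm hl0) hnc' hnm
  have k2 := h₁ j (k₀ * m ^ 3 * h * l ^ 3) b a M σ t R X Y hb ha hY1 hR (by linarith) hMY hMR hσ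
  rw [neg_zero, Real.rpow_zero, mul_one, hrow] at k2
  rw [hrow]
  refine k2.trans ?_
  have ht : (1 : ℝ) ≤ 1 + |t| := by linarith [abs_nonneg t]
  have q1 : (Y ^ 7) ^ (1 / 10000000 : ℝ) ≤ Y ^ (1 / 1000000 : ℝ) := by
    rw [← Real.rpow_natCast, ← Real.rpow_mul hY0.le]
    exact Real.rpow_le_rpow_of_exponent_le hY1 (by norm_num)
  have q2 : (1 + |t|) ^ C₀ ≤ (1 + |t|) ^ ⌈C₀⌉₊ := by
    rw [← Real.rpow_natCast]
    exact Real.rpow_le_rpow_of_exponent_le ht (Nat.le_ceil _)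
  have q3 : Real.sqrt (nm (rad (k₀ * h))) ≤ Real.sqrt (nm k₀ * nm l) := Real.sqrt_le_sqrt (nm_rad_le H hk)
  have p1 : 1 ≤ Y ^ (1 / 1000000 : ℝ) := Real.one_le_rpow hY1 (by norm_num)
  have p2 : 1 ≤ (1 + |t|) ^ ⌈C₀⌉₊ := one_le_pow₀ ht
  have p3 : 1 ≤ Real.sqrt (nm k₀ * nm l) := Real.one_le_sqrt.2 (by nlinarith)
  have r1 : C₀ * (Y ^ 7) ^ (1 / 10000000 : ℝ) * (1 + |t|) ^ C₀ * Real.sqrt (nm (rad (k₀ * h))) ≤
      max C₀ 0 * Y ^ (1 / 1000000 : ℝ) * (1 + |t|) ^ ⌈C₀⌉₊ * Real.sqrt (nm k₀ * nm l) := by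
    calc _ ≤ max C₀ 0 * (Y ^ 7) ^ (1 / 10000000 : ℝ) * (1 + |t|) ^ C₀ * Real.sqrt (nm (rad (k₀ * h))) := by
          gcongr
          exact le_max_left _ _
      _ ≤ _ := by gcongr
  have r2 : C₁ ≤ C₁ * Y ^ (1 / 1000000 : ℝ) * (1 + |t|) ^ ⌈C₀⌉₊ * Real.sqrt (nm k₀ * nm l) := by
    calc C₁ = C₁ * 1 * 1 * 1 := by ring
      _ ≤ _ := by gcongr
  calc _ ≤ _ := add_le_add (k1.trans r1) r2
    _ = _ := by ring

/-- pure numerics: exponent `0.00001 + 0.10667 + 0.53734 + 0.0606 + 0.34004`, `L^(-4/3 - 2)` -/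
theorem near_num {Y K U L : ℝ} (hY : 2 ≤ Y) (hK0 : 0 < K) (hK : K ≤ Y ^ (32001 / 100000 : ℝ)) (hL : 1 ≤ L)
    (hU : 1 ≤ U) :
    Y ^ (1 / 100000 : ℝ) * (U ^ (1 / 3 : ℝ) * (Y ^ (2015 / 10000 : ℝ) / L ^ 2) ^ (2 / 3 : ℝ)) *
      (Y ^ (303 / 10000 : ℝ)) ^ 2 * (Y ^ (17002 / 100000 : ℝ)) ^ 2 *
      (Y ^ (2015 / 10000 : ℝ) / L ^ 2 * L) ^ 2 ≤ tgt Y K U L := by
  have hY0 : 0 < Y := by linarith
  have hL0 : 0 < L := by linarith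
  have hU0 : 0 < U := by linarith
  have h1 : 0 ≤ Real.log Y := Real.log_nonneg (by linarith)
  have h2 : 0 ≤ Real.log L := Real.log_nonneg hL
  have h3 := Real.log_le_log hK0 hK
  rw [Real.log_rpow hY0] at h3
  refine le_trans ?_ (mul_le_mul_of_nonneg_left (le_add_of_nonneg_right (by positivity)) (by positivity))
  rw [← Real.log_le_log_iff (by positivity) (by positivity)]
  simp (disch := positivity) only [Real.log_mul, Real.log_rpow, Real.log_pow, Real.log_div]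
  push_cast
  linarith

/-- `l2_RB` (`card T ≤ 11 Y^0.0303`), `l2_three` (`Par.supp₁`, `Par.supp₂₃`; `(dn l · dn (d²)²)⁴ ≤ C Y^(10⁻⁶)`), each
row by `TS_c_le`, `TS_near` twice (`N k₀ N l ≤ Q N l`), `card_near_cube_le`, `near_num` -/
theorem near_sum (h6 : StPV) (j : ℤ) : ∃ E : ℕ, ∀ (ε : ℝ) (k : ℕ), 0 < ε → ∃ C : ℝ, 0 < C ∧
    ∀ (Y R K X N₀ M₂ M₃ σ t₂ t₃ U : ℝ) (c : O → ℂ) (T S : Finset O) (l h : O),
    Par ε k Y R K X N₀ M₂ M₃ c → Lab X l h → |σ| ≤ 3 → 1 ≤ U → U ≤ Y →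
    (∀ d ∈ T, Prim d ∧ nm d ≤ Y ^ (303 / 10000 : ℝ)) →
    (∀ κ ∈ S, κ ≠ 0 ∧ nm κ ≤ U ∧ ¬ Cube (κ * h) ∧
      ∃ k₀ m : O, nm k₀ ≤ Y ^ (2015 / 10000 : ℝ) / nm l ^ 2 ∧ κ = k₀ * m ^ 3) →
    ∑ κ ∈ S, ‖RB T (G3 j c M₂ t₂ M₃ t₃ σ R) X l (κ * h * l ^ 3)‖ ^ 2 ≤
      C * (1 + |t₂| + |t₃|) ^ E * tgt Y K U (nm l) := by
  obtain ⟨E, hE⟩ := TS_near h6 j
  refine ⟨4 * E, fun ε k hε => ?_⟩
  obtain ⟨C₁, hC₁, h₁⟩ := TS_c_le k
  obtain ⟨C₂, hC₂, h₂⟩ := hE ε hε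
  obtain ⟨C₃, hC₃, h₃⟩ := card_near_cube_le
  obtain ⟨D₁, hD₁, d₁⟩ := dn_pow_le 4 (ε := 1 / 1000000) (by norm_num)
  obtain ⟨D₂, hD₂, d₂⟩ := dn_pow_le 8 (ε := 1 / 1000000) (by norm_num)
  refine ⟨121 * (D₁ * D₂) * C₃ * C₁ ^ 2 * C₂ ^ 4, by positivity,
    fun Y R K X N₀ M₂ M₃ σ t₂ t₃ U c T S l h P H hσ hU hUY hT hS => ?_⟩
  have hY1 := P.one_le_Y
  have hY0 : 0 < Y := by linarith
  have hl0 := H.ne_zero
  have hL := one_le_nm hl0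
  have hlY : nm l ≤ Y := H.hlX.trans P.X_le
  have hn := near_num P.hY P.hK0 P.hK hL hU
  set Q := Y ^ (2015 / 10000 : ℝ) / nm l ^ 2 with hQ
  have hQ0 : 0 ≤ Q := by positivity
  set τ := (1 + |t₂| + |t₃|) ^ E with hτ
  have hτ0 : 0 ≤ τ := by positivity
  set y := Y ^ (1 / 1000000 : ℝ) with hy
  have hy0 : 0 ≤ y := by positivity
  have hcard := h₃ U Q S (by linarith) hQ0 fun κ hκ => ⟨(hS κ hκ).1, (hS κ hκ).2.1, (hS κ hκ).2.2.2⟩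
  have hTc := card_le_of_nm_le (by positivity) fun d hd => ⟨(hT d hd).1.ne_zero, (hT d hd).2⟩
  have hrow : ∀ κ ∈ S, ∀ (M t : ℝ) (b a : O), 1 ≤ M → M * R ≤ X → 1 + |t| ≤ 1 + |t₂| + |t₃| →
      Prim b → Prim a → nm b ≤ Y → nm a ≤ Y →
      ‖TS (κ * h * l ^ 3) X (ms b a (plw j M σ t R))‖ ≤ C₂ * y * τ * √(Q * nm l) := by
    intro κ hκ M t b a hM hMR ht hb ha hbY haY
    obtain ⟨h0, hκU, hc, k₀, m, hk, rfl⟩ := hS κ hκ
    refine (h₂ Y R X M σ t l h k₀ m b a P.hY P.hR P.hX hM hMR hσ H (left_ne_zero_of_mul h0)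
      (fun hm => h0 (by simp [hm])) (hκU.trans hUY) hc hb ha hbY haY).trans ?_
    rw [hτ]
    gcongr
  have key : ∀ d ∈ T, ∑ κ ∈ S, ‖TS (κ * h * l ^ 3) X (ms l (d ^ 2) (G3 j c M₂ t₂ M₃ t₃ σ R))‖ ^ 2 ≤
      D₁ * y * (D₂ * y) * (C₃ * U ^ (1 / 3 : ℝ) * Q ^ (2 / 3 : ℝ) *
        (C₁ * Y ^ (17002 / 100000 : ℝ) * ((C₂ * y * τ) ^ 2 * (Q * nm l))) ^ 2) := by
    intro d hd
    obtain ⟨hd1, hd2⟩ := hT d hd
    have hd0 := (hd1.pow 2).ne_zero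
    have hdY : nm (d ^ 2) ≤ Y := by
      rw [nm_pow]
      refine (pow_le_pow_left₀ (nm_nonneg d) hd2 2).trans ?_
      rw [← Real.rpow_natCast, ← Real.rpow_mul hY0.le]
      exact Real.rpow_le_self_of_one_le hY1 (by norm_num)
    refine (l2_three H.hl.1 (hd1.pow 2) S (fun κ => κ * h * l ^ 3)
      (fun κ _ => (dvd_pow_self l (by norm_num)).mul_left _) X
      (fun a b _ _ => P.supp₁ j σ t₂ t₃ a b) (fun a b _ _ => P.supp₂₃ j σ t₂ t₃ a b)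
      (H := C₃ * U ^ (1 / 3 : ℝ) * Q ^ (2 / 3 : ℝ) *
        (C₁ * Y ^ (17002 / 100000 : ℝ) * ((C₂ * y * τ) ^ 2 * (Q * nm l))) ^ 2) ?_).trans ?_
    · intro l₁ l₂ l₃ a₁ a₂ a₃ p₁ p₂ p₃ q₁ q₂ q₃ e0 _ r₂ r₃
      refine (Finset.sum_le_card_nsmul _ _
        ((C₁ * Y ^ (17002 / 100000 : ℝ) * ((C₂ * y * τ) ^ 2 * (Q * nm l))) ^ 2) fun κ hκ => ?_).trans ?_
      · have b1 := h₁ ε Y R K X N₀ M₂ M₃ c (κ * h * l ^ 3) l₁ a₁ P p₁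
        have b2 := hrow κ hκ M₂ t₂ l₂ a₂ P.hM₂ P.M₂R_le (by linarith [abs_nonneg t₃]) p₂ q₂
          ((nm_le_of_dvd ⟨l₁ * l₃, by rw [← e0]; ring⟩ hl0).trans hlY)
          ((nm_le_of_dvd r₂ hd0).trans hdY)
        have b3 := hrow κ hκ M₃ t₃ l₃ a₃ P.hM₃ P.M₃R_le (by linarith [abs_nonneg t₂]) p₃ q₃
          ((nm_le_of_dvd ⟨l₁ * l₂, by rw [← e0]; ring⟩ hl0).trans hlY)
          ((nm_le_of_dvd r₃ hd0).trans hdY)
        have e1 : (C₂ * y * τ) ^ 2 * (Q * nm l) =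
            C₂ * y * τ * √(Q * nm l) * (C₂ * y * τ * √(Q * nm l)) := by
          conv_lhs => rw [← Real.mul_self_sqrt (mul_nonneg hQ0 (nm_nonneg l))]
          ring
        rw [e1]
        gcongr
      · rw [nsmul_eq_mul]
        exact mul_le_mul_of_nonneg_right hcard (sq_nonneg _)
    · refine mul_le_mul_of_nonneg_right ?_ (by positivity)
      rw [mul_pow, ← pow_mul]
      refine mul_le_mul ((d₁ l hl0).trans ?_) ((d₂ _ hd0).trans ?_) (by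
        have := dn_nonneg (d ^ 2); positivity) (by positivity)
      · exact mul_le_mul_of_nonneg_left (Real.rpow_le_rpow (nm_nonneg _) hlY (by norm_num)) hD₁.le
      · exact mul_le_mul_of_nonneg_left (Real.rpow_le_rpow (nm_nonneg _) hdY (by norm_num)) hD₂.le
  refine (l2_RB T S _ X l (fun κ => κ * h * l ^ 3) key).trans ?_
  have hy6 : y ^ 6 ≤ Y ^ (1 / 100000 : ℝ) := by
    rw [hy, ← Real.rpow_natCast, ← Real.rpow_mul hY0.le]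
    exact Real.rpow_le_rpow_of_exponent_le hY1 (by norm_num)
  calc _ ≤ (11 * Y ^ (303 / 10000 : ℝ)) ^ 2 *
        (D₁ * y * (D₂ * y) * (C₃ * U ^ (1 / 3 : ℝ) * Q ^ (2 / 3 : ℝ) *
        (C₁ * Y ^ (17002 / 100000 : ℝ) * ((C₂ * y * τ) ^ 2 * (Q * nm l))) ^ 2)) := by gcongr
    _ = 121 * (D₁ * D₂) * C₃ * C₁ ^ 2 * C₂ ^ 4 * τ ^ 4 *
        (y ^ 6 * (U ^ (1 / 3 : ℝ) * Q ^ (2 / 3 : ℝ)) * (Y ^ (303 / 10000 : ℝ)) ^ 2 *
          (Y ^ (17002 / 100000 : ℝ)) ^ 2 * (Q * nm l) ^ 2) := by ring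
    _ ≤ 121 * (D₁ * D₂) * C₃ * C₁ ^ 2 * C₂ ^ 4 * τ ^ 4 * tgt Y K U (nm l) := by
        refine mul_le_mul_of_nonneg_left (le_trans ?_ hn) (by positivity)
        gcongr
    _ = _ := by rw [hτ, ← pow_mul, mul_comm E]

end Crest.Agent.R12
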