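import Crest.Agent.R12.QR.Far
import Crest.Agent.R12.QR.Near
import Crest.Agent.R12.QR.Mom

/-!
Row 12, block QB, dual rows (owner helper72): all non-cube rows.
-/

set_option autoImplicit false

namespace Crest.Agent.R12

open Crest.Agent.R17
open scoped ComplexConjugate

theorem qra_Q {Y L Q F : ℝ} (hY : 1 ≤ Y) (hL : 1 ≤ L) (hF : 1 ≤ F)
    (hQ : Y ^ (2015 / 10000 : ℝ) / L ^ 2 ≤ Q) :
    Q ^ (-(3 / 10) : ℝ) / F ≤ 2 * Y ^ (-(604 / 10000) : ℝ) * L ^ (2 / 3 : ℝ) := by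
  have hY0 : 0 < Y := by linarith
  have hL0 : 0 < L := by linarith
  have h0 : 0 < Y ^ (2015 / 10000 : ℝ) / L ^ 2 := by positivity
  have hQ0 : 0 < Q := lt_of_lt_of_le h0 hQ
  have h1 : Q ^ (-(3 / 10) : ℝ) ≤ (Y ^ (2015 / 10000 : ℝ) / L ^ 2) ^ (-(3 / 10) : ℝ) :=
    Real.rpow_le_rpow_of_nonpos h0 hQ (by norm_num)
  have h2 : (Y ^ (2015 / 10000 : ℝ) / L ^ 2) ^ (-(3 / 10) : ℝ) =
      Y ^ (-(6045 / 100000) : ℝ) * L ^ (3 / 5 : ℝ) := by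
    rw [Real.div_rpow (by positivity) (by positivity), ← Real.rpow_mul hY0.le, ← Real.rpow_natCast L 2,
      ← Real.rpow_mul hL0.le, div_eq_mul_inv, ← Real.rpow_neg hL0.le]
    norm_num
  have h3 : Y ^ (-(6045 / 100000) : ℝ) ≤ Y ^ (-(604 / 10000) : ℝ) :=
    Real.rpow_le_rpow_of_exponent_le hY (by norm_num)
  have h4 : L ^ (3 / 5 : ℝ) ≤ L ^ (2 / 3 : ℝ) := Real.rpow_le_rpow_of_exponent_le hL (by norm_num)
  have h5 : Q ^ (-(3 / 10) : ℝ) / F ≤ Q ^ (-(3 / 10) : ℝ) := div_le_self (by positivity) hF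
  have h6 : Y ^ (-(6045 / 100000) : ℝ) * L ^ (3 / 5 : ℝ) ≤ Y ^ (-(604 / 10000) : ℝ) * L ^ (2 / 3 : ℝ) :=
    mul_le_mul h3 h4 (by positivity) (by positivity)
  have h7 : 0 ≤ Y ^ (-(604 / 10000) : ℝ) * L ^ (2 / 3 : ℝ) := by positivity
  nlinarith

theorem qra_half {Y L : ℝ} (hY : 1 ≤ Y) (hL : 1 ≤ L) :
    (1 / 2 : ℝ) ^ (-(3 / 10) : ℝ) / (Y ^ (303 / 10000 : ℝ)) ^ 2 ≤
      2 * Y ^ (-(604 / 10000) : ℝ) * L ^ (2 / 3 : ℝ) := by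
  have hY0 : 0 < Y := by linarith
  have h1 : (1 / 2 : ℝ) ^ (-(3 / 10) : ℝ) ≤ 2 := by
    have : (1 / 2 : ℝ) ^ (-(3 / 10) : ℝ) ≤ (1 / 2 : ℝ) ^ (-1 : ℝ) :=
      Real.rpow_le_rpow_of_exponent_ge (by norm_num) (by norm_num) (by norm_num)
    rw [Real.rpow_neg_one] at this
    linarith
  have h2 : ((Y ^ (303 / 10000 : ℝ)) ^ 2)⁻¹ = Y ^ (-(606 / 10000) : ℝ) := by
    rw [← Real.rpow_natCast _ 2, ← Real.rpow_mul hY0.le, ← Real.rpow_neg hY0.le]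
    norm_num
  have h3 : Y ^ (-(606 / 10000) : ℝ) ≤ Y ^ (-(604 / 10000) : ℝ) :=
    Real.rpow_le_rpow_of_exponent_le hY (by norm_num)
  have h4 : 1 ≤ L ^ (2 / 3 : ℝ) := Real.one_le_rpow hL (by norm_num)
  rw [div_eq_mul_inv, h2]
  have h5 : 0 ≤ Y ^ (-(606 / 10000) : ℝ) := by positivity
  have h6 : 0 ≤ Y ^ (-(604 / 10000) : ℝ) := by positivity
  calc (1 / 2 : ℝ) ^ (-(3 / 10) : ℝ) * Y ^ (-(606 / 10000) : ℝ) ≤ 2 * Y ^ (-(604 / 10000) : ℝ) :=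
        mul_le_mul h1 h3 h5 (by norm_num)
    _ ≤ _ := le_mul_of_one_le_right (by positivity) h4

theorem rows_RB (h4 : StAllG) (h5 : StMom) (h6 : StPV) (j : ℤ) : ∃ E : ℕ, ∀ (ε : ℝ) (k : ℕ), 0 < ε →
    ∃ C : ℝ, 0 < C ∧ ∀ (Y R K X N₀ M₂ M₃ σ t₂ t₃ U : ℝ) (c : O → ℂ) (S : Finset O) (l h : O),
    Par ε k Y R K X N₀ M₂ M₃ c → Lab X l h → |σ| ≤ 3 → 1 ≤ U →
    (∀ κ ∈ S, κ ≠ 0 ∧ nm κ ≤ U ∧ ¬ Cube (κ * h)) →
    ∑ κ ∈ S, ‖RB (pball X) (G3 j c M₂ t₂ M₃ t₃ σ R) X l (κ * h * l ^ 3)‖ ^ 2 ≤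
      C * (1 + |t₂| + |t₃|) ^ E * tgt Y K U (nm l) := by
  classical
  obtain ⟨E₁, h₁⟩ := near_sum h6 j
  obtain ⟨E₂, h₂⟩ := mom_sum h4 h5 j
  refine ⟨E₁ + E₂, fun ε k hε => ?_⟩
  obtain ⟨C₁, hC₁, h₁⟩ := h₁ ε k hε
  obtain ⟨C₂, hC₂, h₂⟩ := h₂ ε k hε
  obtain ⟨Cf, hCf, hf⟩ := far_gen h4 k
  obtain ⟨Cb, hCb, hb⟩ := big_sum k
  refine ⟨Cb + 2 * C₁ + 4 * C₂ + 40 * Cf, by positivity, ?_⟩
  intro Y R K X N₀ M₂ M₃ σ t₂ t₃ U c S l h P H hσ hU hS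
  have hY1 := P.one_le_Y
  have hY0 : 0 < Y := by linarith
  have hL1 : 1 ≤ nm l := one_le_nm H.ne_zero
  set τ := tgt Y K U (nm l) with hτ
  have hτ0 : 0 ≤ τ := tgt_nonneg hY0.le P.hK0.le (by linarith) (by linarith)
  set w := (1 + |t₂| + |t₃|) with hw
  have hw1 : 1 ≤ w := by have := abs_nonneg t₂; have := abs_nonneg t₃; linarith
  have hwE : 1 ≤ w ^ (E₁ + E₂) := one_le_pow₀ hw1
  have hw₁ : w ^ E₁ ≤ w ^ (E₁ + E₂) := pow_le_pow_right₀ hw1 (by omega)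
  have hw₂ : w ^ E₂ ≤ w ^ (E₁ + E₂) := pow_le_pow_right₀ hw1 (by omega)
  set W := w ^ (E₁ + E₂) * τ with hW
  have hτW : τ ≤ W := le_mul_of_one_le_left hτ0 hwE
  have hW0 : 0 ≤ W := hτ0.trans hτW
  have hT : ∀ d ∈ pball X, Prim d := fun d hd => (mem_pball.1 hd).2
  rw [mul_assoc]
  rcases le_total Y U with hYU | hUY
  · have := hb ε Y R K X N₀ M₂ M₃ σ t₂ t₃ U c j (pball X) S l h P H hYU hT
      fun κ hκ => ⟨(hS κ hκ).1, (hS κ hκ).2.1⟩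
    have h2 : Cb * τ ≤ Cb * W := mul_le_mul_of_nonneg_left hτW hCb.le
    have h3 : 0 ≤ (2 * C₁ + 4 * C₂ + 40 * Cf) * W := by positivity
    nlinarith
  have far : ∀ (F Q : ℝ) (T S' : Finset O), 1 ≤ F → 1 / 2 ≤ Q → (∀ d ∈ T, Prim d ∧ F ≤ nm d ^ 2) →
      (∀ κ ∈ S', κ ≠ 0 ∧ nm κ ≤ U ∧ ∀ k₀ m : O, κ = k₀ * m ^ 3 → Q < nm k₀) →
      Q ^ (-(3 / 10) : ℝ) / F ≤ 2 * Y ^ (-(604 / 10000) : ℝ) * nm l ^ (2 / 3 : ℝ) →
      (Y ^ (1 / 2500 : ℝ) ≤ F ∨ Y ^ (1 / 2500 : ℝ) ≤ nm l ∨ K * Y ^ (1 / 2500 : ℝ) ≤ U) →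
      ∑ κ ∈ S', ‖RB T (G3 j c M₂ t₂ M₃ t₃ σ R) X l (κ * h * l ^ 3)‖ ^ 2 ≤ 4 * Cf * W := by
    intro F Q T S' hF hQ hT' hS' H2 H3
    have a := hf ε Y R K X N₀ M₂ M₃ σ t₂ t₃ U F Q c j T S' l h P H hU hUY hF hQ hT' hS'
    have b := far_num P.hY P.hK0 P.hK P.hX hL1 H.hlX hU hF (by linarith) H2 H3
    calc _ ≤ _ := a
      _ ≤ Cf * (4 * τ) := mul_le_mul_of_nonneg_left b hCf.le
      _ ≤ Cf * (4 * W) := mul_le_mul_of_nonneg_left (by linarith) hCf.le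
      _ = _ := by ring
  set D₁ := Y ^ (303 / 10000 : ℝ) with hD₁
  set L₀ := Y ^ (1 / 2500 : ℝ) with hL₀
  have hD1 : 1 ≤ D₁ := Real.one_le_rpow hY1 (by norm_num)
  have hL01 : 1 ≤ L₀ := Real.one_le_rpow hY1 (by norm_num)
  have hLD : L₀ ≤ D₁ := Real.rpow_le_rpow_of_exponent_le hY1 (by norm_num)
  set Q := max (1 / 2) (Y ^ (2015 / 10000 : ℝ) / nm l ^ 2) with hQ
  have hQ1 : 1 / 2 ≤ Q := le_max_left _ _
  have hQ2 : Y ^ (2015 / 10000 : ℝ) / nm l ^ 2 ≤ Q := le_max_right _ _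
  have hk0 : ∀ κ ∈ S, ∀ k₀ m : O, κ = k₀ * m ^ 3 → 1 ≤ nm k₀ := by
    intro κ hκ k₀ m e
    refine one_le_nm ?_
    rintro rfl
    exact (hS κ hκ).1 (by simp [e])
  set G := G3 j c M₂ t₂ M₃ t₃ σ R with hG
  set T₀₁ := (pball X).filter (fun d => nm d ≤ D₁) with hT₀₁
  have s1 := l2_RB_split (pball X) S (fun d => nm d ≤ D₁) G X l (fun κ => κ * h * l ^ 3)
  have p2 := far (D₁ ^ 2) (1 / 2) ((pball X).filter fun d => ¬ nm d ≤ D₁) S (one_le_pow₀ hD1) le_rfl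
    (fun d hd => by
      rw [Finset.mem_filter] at hd
      exact ⟨hT d hd.1, pow_le_pow_left₀ (by linarith) (not_le.1 hd.2).le 2⟩)
    (fun κ hκ => ⟨(hS κ hκ).1, (hS κ hκ).2.1, fun k₀ m e => by have := hk0 κ hκ k₀ m e; linarith⟩)
    (qra_half hY1 hL1) (Or.inl (by nlinarith))
  set fr : O → Prop := fun κ => ∀ k₀ m : O, κ = k₀ * m ^ 3 → Q < nm k₀ with hfr
  have s2 := Finset.sum_filter_add_sum_filter_not S fr
    (fun κ => ‖RB T₀₁ G X l (κ * h * l ^ 3)‖ ^ 2)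
  have pn : ∑ κ ∈ S.filter (fun κ => ¬ fr κ), ‖RB T₀₁ G X l (κ * h * l ^ 3)‖ ^ 2 ≤ C₁ * W := by
    have := h₁ Y R K X N₀ M₂ M₃ σ t₂ t₃ U c T₀₁ (S.filter fun κ => ¬ fr κ) l h P H hσ hU hUY
      (fun d hd => by
        rw [hT₀₁, Finset.mem_filter] at hd
        exact ⟨hT d hd.1, hd.2⟩)
      (fun κ hκ => by
        rw [Finset.mem_filter] at hκ
        obtain ⟨hκ, hn⟩ := hκ
        refine ⟨(hS κ hκ).1, (hS κ hκ).2.1, (hS κ hκ).2.2, ?_⟩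
        simp only [hfr, not_forall, not_lt] at hn
        obtain ⟨k₀, m, e, hle⟩ := hn
        refine ⟨k₀, m, ?_, e⟩
        have := hk0 κ hκ k₀ m e
        rcases le_max_iff.1 hle with h' | h'
        · linarith
        · exact h')
    calc _ ≤ _ := this
      _ = C₁ * (w ^ E₁ * τ) := by ring
      _ ≤ C₁ * W := mul_le_mul_of_nonneg_left (mul_le_mul_of_nonneg_right hw₁ hτ0) hC₁.le
  have hSf : ∀ κ ∈ S.filter fr, κ ≠ 0 ∧ nm κ ≤ U ∧ ∀ k₀ m : O, κ = k₀ * m ^ 3 → Q < nm k₀ := by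
    intro κ hκ
    rw [Finset.mem_filter] at hκ
    exact ⟨(hS κ hκ.1).1, (hS κ hκ.1).2.1, hκ.2⟩
  have hT' : ∀ d ∈ T₀₁, Prim d := fun d hd => hT d (Finset.mem_filter.1 hd).1
  have s3 := l2_RB_split T₀₁ (S.filter fr) (fun d => nm d ≤ L₀) G X l (fun κ => κ * h * l ^ 3)
  have p1 := far (L₀ ^ 2) Q (T₀₁.filter fun d => ¬ nm d ≤ L₀) (S.filter fr) (one_le_pow₀ hL01) hQ1
    (fun d hd => by
      rw [Finset.mem_filter] at hd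
      exact ⟨hT' d hd.1, pow_le_pow_left₀ (by linarith) (not_le.1 hd.2).le 2⟩)
    hSf (qra_Q hY1 hL1 (one_le_pow₀ hL01) hQ2) (Or.inl (by nlinarith))
  have p0 : ∑ κ ∈ S.filter fr, ‖RB (T₀₁.filter fun d => nm d ≤ L₀) G X l (κ * h * l ^ 3)‖ ^ 2 ≤
      (C₂ + 4 * Cf) * W := by
    by_cases hc : nm l ≤ L₀ ∧ U ≤ K * L₀
    · have := h₂ Y R K X N₀ M₂ M₃ σ t₂ t₃ U c (T₀₁.filter fun d => nm d ≤ L₀) (S.filter fr) l h P H hσ hU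
        hc.2 hc.1
        (fun d hd => by
          rw [Finset.mem_filter] at hd
          exact ⟨hT' d hd.1, hd.2⟩)
        (fun κ hκ => hS κ (Finset.mem_filter.1 hκ).1)
      calc _ ≤ _ := this
        _ = C₂ * (w ^ E₂ * τ) := by ring
        _ ≤ C₂ * W := mul_le_mul_of_nonneg_left (mul_le_mul_of_nonneg_right hw₂ hτ0) hC₂.le
        _ ≤ _ := mul_le_mul_of_nonneg_right (by linarith) hW0
    · have := far 1 Q (T₀₁.filter fun d => nm d ≤ L₀) (S.filter fr) le_rfl hQ1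
        (fun d hd => by
          rw [Finset.mem_filter] at hd
          exact ⟨hT' d hd.1, one_le_pow₀ (one_le_nm (hT' d hd.1).ne_zero)⟩)
        hSf (qra_Q hY1 hL1 le_rfl hQ2) (by
          rw [not_and_or, not_le, not_le] at hc
          rcases hc with hc | hc
          · exact Or.inr (Or.inl hc.le)
          · exact Or.inr (Or.inr hc.le))
      calc _ ≤ _ := this
        _ ≤ _ := mul_le_mul_of_nonneg_right (by linarith) hW0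
  have h9 : 0 ≤ Cb * W := by positivity
  have e : (Cb + 2 * C₁ + 4 * C₂ + 40 * Cf) * W = Cb * W + 2 * (C₁ * W) + 4 * ((C₂ + 4 * Cf) * W) +
      6 * (4 * Cf * W) := by ring
  rw [e]
  linarith

/-- `N l^(1/3) · N l^(-4/3) = (N l)⁻¹`, `sum_dn_pow_div_le 2` (or `dn_pow_le 2` and `sum_inv_nm_le`),
`A' / B ≤ Y^(0.18 + 2·10⁻⁶)` -/
theorem OD_le : ∃ C : ℝ, 0 < C ∧ ∀ (Y A' B X W : ℝ) (ν : ℕ), 2 ≤ Y → 0 ≤ A' →
    A' ≤ Y ^ (68 / 100 + 1 / 1000000 : ℝ) → Y ^ (1 / 2 - 1 / 1000000 : ℝ) ≤ B → X ≤ Y → 0 ≤ W →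
    OD 1 A' B X ν (fun n => W * nm n ^ (-(4 / 3) : ℝ)) (fun n => W * (nm n)⁻¹) ≤
      C * W * Y ^ (18001 / 100000 : ℝ) := by
  obtain ⟨C, D, hC, hD, h⟩ := sum_dn_pow_div_le 2
  set θ : ℝ := 8 / 1000000 / (D + 1) with hθ
  have hθ0 : 0 < θ := by positivity
  refine ⟨2 * (C * (θ ^ D)⁻¹), by positivity, ?_⟩
  intro Y A' B X W ν hY hA0 hA hB hX hW
  have hY0 : 0 < Y := by linarith
  have hY1 : 1 ≤ Y := by linarith
  have hB0 : 0 < B := lt_of_lt_of_le (by positivity) hB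
  have h1 : A' / B ≤ Y ^ (18 / 100 + 2 / 1000000 : ℝ) := by
    calc A' / B ≤ Y ^ (68 / 100 + 1 / 1000000 : ℝ) / Y ^ (1 / 2 - 1 / 1000000 : ℝ) := by gcongr
      _ = _ := by rw [← Real.rpow_sub hY0]; norm_num
  have h2 : Real.log Y ^ D ≤ (θ ^ D)⁻¹ * Y ^ (8 / 1000000 : ℝ) := by
    have e1 : θ * D ≤ 8 / 1000000 := by
      rw [hθ, div_mul_eq_mul_div, div_le_iff₀ (by positivity)]; nlinarith
    calc Real.log Y ^ D ≤ (Y ^ θ / θ) ^ D :=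
          Real.rpow_le_rpow (Real.log_nonneg hY1) (Real.log_le_rpow_div hY0.le hθ0) hD
      _ = (θ ^ D)⁻¹ * Y ^ (θ * D) := by
          rw [Real.div_rpow (by positivity) hθ0.le, ← Real.rpow_mul hY0.le]; ring
      _ ≤ _ := by gcongr
  have h3 : ∑ l ∈ sball X, dn l ^ 2 * (nm l ^ (1 / 3 : ℝ) * (W * nm l ^ (-(4 / 3) : ℝ)) + W * (nm l)⁻¹) ≤
      2 * W * (C * ((θ ^ D)⁻¹ * Y ^ (8 / 1000000 : ℝ))) := by
    calc ∑ l ∈ sball X, dn l ^ 2 * (nm l ^ (1 / 3 : ℝ) * (W * nm l ^ (-(4 / 3) : ℝ)) + W * (nm l)⁻¹)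
        = 2 * W * ∑ l ∈ sball X, dn l ^ 2 / nm l := by
          rw [Finset.mul_sum]
          refine Finset.sum_congr rfl fun l hl => ?_
          have hl0 := nm_pos (mem_sball.1 hl).2.ne_zero
          have e2 : nm l ^ (1 / 3 : ℝ) * nm l ^ (-(4 / 3) : ℝ) = (nm l)⁻¹ := by
            rw [← Real.rpow_add hl0, ← Real.rpow_neg_one]; norm_num
          calc dn l ^ 2 * (nm l ^ (1 / 3 : ℝ) * (W * nm l ^ (-(4 / 3) : ℝ)) + W * (nm l)⁻¹)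
              = dn l ^ 2 * (W * (nm l ^ (1 / 3 : ℝ) * nm l ^ (-(4 / 3) : ℝ)) + W * (nm l)⁻¹) := by ring
            _ = _ := by rw [e2]; ring
      _ ≤ 2 * W * ∑ l ∈ pball Y, dn l ^ 2 / nm l := by
          refine mul_le_mul_of_nonneg_left (Finset.sum_le_sum_of_subset_of_nonneg (fun l hl => ?_)
            fun l _ _ => div_nonneg (sq_nonneg _) (nm_nonneg _)) (by positivity)
          exact mem_pball.2 ⟨(mem_sball.1 hl).1.trans hX, (mem_sball.1 hl).2.1⟩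
      _ ≤ 2 * W * (C * Real.log Y ^ D) := by gcongr; exact h Y hY
      _ ≤ _ := by gcongr
  have e3 : Y ^ (18 / 100 + 2 / 1000000 : ℝ) * Y ^ (8 / 1000000 : ℝ) = Y ^ (18001 / 100000 : ℝ) := by
    rw [← Real.rpow_add hY0]; norm_num
  unfold OD
  rw [one_pow, inv_one, one_mul, one_mul]
  calc A' / B * ∑ l ∈ sball X, dn l ^ 2 *
        (nm l ^ (1 / 3 : ℝ) * (W * nm l ^ (-(4 / 3) : ℝ)) + W * (nm l)⁻¹)
      ≤ A' / B * (2 * W * (C * ((θ ^ D)⁻¹ * Y ^ (8 / 1000000 : ℝ)))) := by gcongr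
    _ ≤ Y ^ (18 / 100 + 2 / 1000000 : ℝ) * (2 * W * (C * ((θ ^ D)⁻¹ * Y ^ (8 / 1000000 : ℝ)))) := by
        gcongr
    _ = _ := by rw [← e3]; ring

end Crest.Agent.R12
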