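import Crest.Agent.R12.QB.Defs
import Crest.Agent.R12.Base.Cube

/-!
Row 12, block QB, dual rows (owner helper72): definitions.
-/

set_option autoImplicit false

namespace Crest.Agent.R12

open Crest.Agent.R17
open scoped ComplexConjugate

open Classical in
/-- shift by `l`, mask by `a` -/
noncomputable def ms (l a : O) (f : O → ℂ) (n : O) : ℂ := if a ∣ n then f (l * n) else 0

/-- the character sum of row `κ` over the primary columns -/
noncomputable def TS (κ : O) (X : ℝ) (f : O → ℂ) : ℂ := ∑ n ∈ pball X, f n * cb κ n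

open Classical in
/-- a plain variable with centre `M e^σ`, cut to `(M / R, M R]` -/
noncomputable def plw (l : ℤ) (M σ t R : ℝ) (n : O) : ℂ :=
  if M / R < nm n ∧ nm n ≤ M * R then pl l (M * Real.exp σ) t n else 0

open Classical in
/-- the part `d ∈ T` of `μ²(n) = ∑_{d² ∣ n} μ(d)` -/
noncomputable def mq (T : Finset O) (n : O) : ℂ := ∑ d ∈ T, if d ^ 2 ∣ n then mu d else 0

/-- the block `d ∈ T` of a dual column sum with label `l` in row `κ` -/
noncomputable def RB (T : Finset O) (Γ : O → ℂ) (X : ℝ) (l κ : O) : ℂ :=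
  TS κ X fun n => mq T n * Γ (l * n)

/-- the column sequence after the twist has been absorbed -/
noncomputable def G3 (l : ℤ) (c : O → ℂ) (M₂ t₂ M₃ t₃ σ R : ℝ) : O → ℂ :=
  cv c (cv (plw l M₂ σ t₂ R) (plw l M₃ σ t₃ R))

/-- the target size; `L` is the norm of the label -/
noncomputable def tgt (Y K U L : ℝ) : ℝ :=
  Y ^ (10465 / 10000 : ℝ) * (L ^ (-(4 / 3) : ℝ) * (U / K) ^ (1 / 3 : ℝ) +
    L⁻¹ * ((U / K) ^ (1 / 2 : ℝ) + (U / K) ^ (5 / 2 : ℝ)))

/-- the standing hypotheses -/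
structure Par (ε : ℝ) (k : ℕ) (Y R K X N₀ M₂ M₃ : ℝ) (c : O → ℂ) : Prop where
  hε : 0 < ε
  hY : 2 ≤ Y
  hR : Y ^ ε ≤ R
  hK0 : 0 < K
  hK : K ≤ Y ^ (32001 / 100000 : ℝ)
  hX : X ≤ Y ^ (50001 / 100000 : ℝ)
  hN : 1 / 2 ≤ N₀
  hM₂ : 1 ≤ M₂
  hM₃ : 1 ≤ M₃
  hP : Y ^ (33 / 100 : ℝ) ≤ M₂ * M₃
  hXX : 2 * N₀ * M₂ * M₃ * R ^ 2 ≤ X
  hc : Dv k c
  hs : ∀ n, c n ≠ 0 → nm n ≤ 2 * N₀

/-- a label and its multiplier -/
structure Lab (X : ℝ) (l h : O) : Prop where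
  hl : PSq l
  hlX : nm l ≤ X
  hh : Prim h
  hhl : h ∣ l ^ 4

end Crest.Agent.R12
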