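import Crest.Agent.R12.QR.Par

/-!
Row 12, block QB, dual rows (owner helper72): expansion of a convolution under a shift and a mask.
-/

set_option autoImplicit false

namespace Crest.Agent.R12

open Crest.Agent.R17
open scoped ComplexConjugate

open Classical in
theorem expa_inner {a b m n₂ : O} (ha : Prim a) (hb : Prim b) :
    (∑ j ∈ pdiv b, if a * j ∣ a * m ∧ b ∣ n₂ then mu j else 0) =
      if IsCoprime b m ∧ b ∣ n₂ then 1 else 0 := by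
  by_cases h : b ∣ n₂
  · simp only [h, and_true, mul_dvd_mul_iff_left ha.ne_zero]
    exact sum_mu_coprime hb m
  · simp only [h, and_false, if_false, Finset.sum_const_zero]

open Classical in
/-- `Prim.exists_gcd D n₁ : D = g a', n₁ = g b'`.  For `e ∈ anti D` with `n₁ = e.1 m` the sum over `j` is
`[e.2 ∣ n₂] [IsCoprime e.2 m]` (`sum_mu_coprime`), and coprimality forces `e = (g, a')` (`gcd_unique`);
`D ∣ n₁ n₂ ↔ a' ∣ n₂`. -/
theorem dvd_mul_ind {D n₁ n₂ : O} (hD : Prim D) (h₁ : Prim n₁) :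
    (if D ∣ n₁ * n₂ then (1 : ℂ) else 0) =
      ∑ e ∈ anti D, ∑ j ∈ pdiv e.2, if e.1 * j ∣ n₁ ∧ e.2 ∣ n₂ then mu j else 0 := by
  obtain ⟨g, a, b, hg, ha, rfl, rfl, hab⟩ := hD.exists_gcd n₁
  rw [Finset.sum_eq_single (g, a)]
  · rw [expa_inner hg ha, mul_assoc]
    refine if_congr ?_ rfl rfl
    rw [mul_dvd_mul_iff_left hg.ne_zero]
    exact ⟨fun h => ⟨hab, hab.dvd_of_dvd_mul_left h⟩, fun h => h.2.mul_left b⟩
  · intro e he hne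
    obtain ⟨e1, e2, e3⟩ := mem_anti.1 he
    by_cases hd : e.1 ∣ g * b
    · obtain ⟨m, hm⟩ := hd
      rw [hm, expa_inner e1 e2, if_neg]
      rintro ⟨hc, -⟩
      obtain ⟨k1, k2, -⟩ := gcd_unique e1 hg e3 hm.symm hc hab
      exact hne (Prod.ext k1 k2)
    · refine Finset.sum_eq_zero fun j _ => if_neg fun h => hd ((dvd_mul_right _ _).trans h.1)
  · intro h
    exact absurd ((mem_anti (n := g * a) (p := (g, a))).2 ⟨hg, ha, rfl⟩) h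

/-- factorisations of a product of two coprime elements: `(q, r) ↦ (q.1 r.1, q.2 r.2)` is a bijection
`anti l × anti n → anti (l n)` (`Finset.sum_bij` or `sum_nbij`; surjective by `Prim.exists_gcd`,
injective by `Prim.dvd_antisymm` and coprimality). -/
theorem sum_anti_mul {l n : O} (hl : Prim l) (hn : Prim n) (h : IsCoprime l n) (F : O → O → ℂ) :
    ∑ p ∈ anti (l * n), F p.1 p.2 = ∑ q ∈ anti l, ∑ r ∈ anti n, F (q.1 * r.1) (q.2 * r.2) := by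
  rw [← Finset.sum_product']
  symm
  refine Finset.sum_bij (fun x _ => (x.1.1 * x.2.1, x.1.2 * x.2.2)) ?_ ?_ ?_ fun _ _ => rfl
  · intro x hx
    obtain ⟨⟨a1, a2, a3⟩, b1, b2, b3⟩ := (Finset.mem_product.1 hx).imp mem_anti.1 mem_anti.1
    exact mem_anti.2 ⟨a1.mul b1, a2.mul b2, by rw [← a3, ← b3]; ring⟩
  · intro x hx y hy e
    obtain ⟨⟨a1, -, a3⟩, b1, -, b3⟩ := (Finset.mem_product.1 hx).imp mem_anti.1 mem_anti.1
    obtain ⟨⟨c1, -, c3⟩, d1, -, d3⟩ := (Finset.mem_product.1 hy).imp mem_anti.1 mem_anti.1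
    have e1 : x.1.1 * x.2.1 = y.1.1 * y.2.1 := congrArg Prod.fst e
    have cop : ∀ {u v u' v' : O}, u * u' = l → v * v' = n → IsCoprime u v := fun h1 h2 =>
      (h.of_isCoprime_of_dvd_left (Dvd.intro _ h1)).of_isCoprime_of_dvd_right (Dvd.intro _ h2)
    have e2 : x.1.1 = y.1.1 := a1.dvd_antisymm c1
      ((cop a3 d3).dvd_of_dvd_mul_right (e1 ▸ dvd_mul_right _ _))
      ((cop c3 b3).dvd_of_dvd_mul_right (e1 ▸ dvd_mul_right _ _))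
    have e3 : x.2.1 = y.2.1 := mul_left_cancel₀ c1.ne_zero (by rw [← e1, e2])
    have e4 : x.1.2 = y.1.2 := mul_left_cancel₀ c1.ne_zero (by rw [c3, ← a3, e2])
    have e5 : x.2.2 = y.2.2 := mul_left_cancel₀ d1.ne_zero (by rw [d3, ← b3, e3])
    exact Prod.ext (Prod.ext e2 e4) (Prod.ext e3 e5)
  · intro p hp
    obtain ⟨a1, a2, a3⟩ := mem_anti.1 hp
    obtain ⟨g, a', b', hg, ha', e1, e2, hc⟩ := hl.exists_gcd p.1
    have hb' : Prim b' := hg.of_mul (e2 ▸ a1)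
    have e3 : b' * p.2 = a' * n :=
      mul_left_cancel₀ hg.ne_zero (by rw [← mul_assoc, ← e2, a3, e1, mul_assoc])
    obtain ⟨m, hm, e4⟩ := ha'.exists_mul a2 (hc.dvd_of_dvd_mul_left (e3 ▸ dvd_mul_right _ _))
    have e5 : b' * m = n := mul_left_cancel₀ ha'.ne_zero (by rw [← e3, e4]; ring)
    exact ⟨((g, a'), (b', m)), Finset.mem_product.2 ⟨mem_anti.2 ⟨hg, ha', e1.symm⟩,
      mem_anti.2 ⟨hb', hm, e5⟩⟩, Prod.ext e2.symm e4.symm⟩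

/-- `sum_anti_mul`, then `dvd_mul_ind` for `D ∣ r.1 r.2 = n`, and exchange the sums -/
theorem ms_cv {l D n : O} (hl : Prim l) (hD : Prim D) (hn : Prim n) (h : IsCoprime l n) (f g : O → ℂ) :
    ms l D (cv f g) n = ∑ q ∈ anti l, ∑ e ∈ anti D, ∑ j ∈ pdiv e.2,
      mu j * cv (ms q.1 (e.1 * j) f) (ms q.2 e.2 g) n := by
  classical
  have e1 : ms l D (cv f g) n = (if D ∣ n then (1 : ℂ) else 0) *
      ∑ q ∈ anti l, ∑ r ∈ anti n, f (q.1 * r.1) * g (q.2 * r.2) := by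
    rw [← sum_anti_mul hl hn h fun a b => f a * g b, ms]
    split_ifs
    · rw [one_mul, cv]
    · rw [zero_mul]
  rw [e1, Finset.mul_sum]
  refine Finset.sum_congr rfl fun q _ => ?_
  simp only [cv, Finset.mul_sum]
  have e2 : ∀ r ∈ anti n, (if D ∣ n then (1 : ℂ) else 0) * (f (q.1 * r.1) * g (q.2 * r.2)) =
      ∑ e ∈ anti D, ∑ j ∈ pdiv e.2, mu j * (ms q.1 (e.1 * j) f r.1 * ms q.2 e.2 g r.2) := by
    intro r hr
    obtain ⟨a1, -, a3⟩ := mem_anti.1 hr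
    have e3 := dvd_mul_ind (n₂ := r.2) hD a1
    rw [a3] at e3
    rw [e3, Finset.sum_mul]
    refine Finset.sum_congr rfl fun e _ => ?_
    rw [Finset.sum_mul]
    refine Finset.sum_congr rfl fun j _ => ?_
    simp only [ms]
    by_cases h1 : e.1 * j ∣ r.1 <;> by_cases h2 : e.2 ∣ r.2 <;> simp [h1, h2]
  rw [Finset.sum_congr rfl e2, Finset.sum_comm]
  exact Finset.sum_congr rfl fun e _ => Finset.sum_comm

open Classical in
theorem expc_anti_ball (X : ℝ) (F : O → O → ℂ) :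
    ∑ b ∈ pball X, ∑ p ∈ anti b, F p.1 p.2 =
      ∑ m ∈ pball X, ∑ n ∈ pball X, if nm (m * n) ≤ X then F m n else 0 := by
  rw [Finset.sum_sigma', ← Finset.sum_product', ← Finset.sum_filter]
  refine Finset.sum_bij' (fun q _ => q.2) (fun p _ => ⟨p.1 * p.2, p⟩) ?_ ?_ ?_ (fun _ _ => rfl)
    fun _ _ => rfl
  · rintro ⟨b, p⟩ hq
    obtain ⟨h1, h2⟩ := Finset.mem_sigma.1 hq
    obtain ⟨h3, h4⟩ := mem_pball.1 h1
    obtain ⟨h5, h6, h7⟩ := mem_anti.1 h2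
    dsimp only at h3 h4 h5 h6 h7 ⊢
    exact Finset.mem_filter.2 ⟨Finset.mem_product.2
      ⟨mem_pball.2 ⟨(nm_le_of_dvd (Dvd.intro _ h7) h4.ne_zero).trans h3, h5⟩,
        mem_pball.2 ⟨(nm_le_of_dvd (Dvd.intro_left _ h7) h4.ne_zero).trans h3, h6⟩⟩, h7 ▸ h3⟩
  · intro p hp
    obtain ⟨h1, h2⟩ := Finset.mem_filter.1 hp
    obtain ⟨h3, h4⟩ := Finset.mem_product.1 h1
    have h5 := (mem_pball.1 h3).2
    have h6 := (mem_pball.1 h4).2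
    exact Finset.mem_sigma.2 ⟨mem_pball.2 ⟨h2, h5.mul h6⟩, mem_anti.2 ⟨h5, h6, rfl⟩⟩
  · rintro ⟨b, p⟩ hq
    obtain rfl : p.1 * p.2 = b := (mem_anti.1 (Finset.mem_sigma.1 hq).2).2.2
    rfl

/-- both sides are sums over pairs of primary elements (`Finset.sum_sigma'`, `cb_mul_right`); the pairs
with `N a, N b ≤ X < N a N b` contribute zero -/
theorem TS_cv (κ : O) (X : ℝ) {f g : O → ℂ}
    (h : ∀ a b, Prim a → Prim b → f a ≠ 0 → g b ≠ 0 → nm a * nm b ≤ X) :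
    TS κ X (cv f g) = TS κ X f * TS κ X g := by
  classical
  have e : TS κ X (cv f g) =
      ∑ b ∈ pball X, ∑ p ∈ anti b, f p.1 * cb κ p.1 * (g p.2 * cb κ p.2) := by
    refine Finset.sum_congr rfl fun b _ => ?_
    rw [cv, Finset.sum_mul]
    refine Finset.sum_congr rfl fun p hp => ?_
    rw [← (mem_anti.1 hp).2.2, cb_mul_right]
    ring
  rw [e, expc_anti_ball X fun m n => f m * cb κ m * (g n * cb κ n), TS, TS, Finset.sum_mul_sum]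
  refine Finset.sum_congr rfl fun m hm => Finset.sum_congr rfl fun n hn => ?_
  split_ifs with h1
  · rfl
  · by_cases h2 : f m = 0
    · simp [h2]
    by_cases h3 : g n = 0
    · simp [h3]
    exact absurd (nm_mul m n ▸ h m n (mem_pball.1 hm).2 (mem_pball.1 hn).2 h2 h3) h1

theorem expc_ms {q a n : O} {f : O → ℂ} (hq : Prim q) (h : ms q a f n ≠ 0) :
    f (q * n) ≠ 0 ∧ nm n ≤ nm (q * n) := by
  refine ⟨fun h0 => h (by simp [ms, h0]), ?_⟩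
  rw [nm_mul]
  exact le_mul_of_one_le_left (nm_nonneg n) (one_le_nm hq.ne_zero)

/-- `cb κ n = 0` unless `n` is prime to `κ`, hence to `l`; `ms_cv`, `TS_cv` (the support condition passes to
`ms`: `N a ≤ N (q a)`), `norm_mu_le` -/
theorem norm_TS_ms_cv {l D κ : O} (hl : Prim l) (hD : Prim D) (hκ : l ∣ κ) (X : ℝ) {f g : O → ℂ}
    (h : ∀ a b, Prim a → Prim b → f a ≠ 0 → g b ≠ 0 → nm a * nm b ≤ X) :
    ‖TS κ X (ms l D (cv f g))‖ ≤ ∑ q ∈ anti l, ∑ e ∈ anti D, ∑ j ∈ pdiv e.2,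
      ‖TS κ X (ms q.1 (e.1 * j) f)‖ * ‖TS κ X (ms q.2 e.2 g)‖ := by
  have e : TS κ X (ms l D (cv f g)) = ∑ q ∈ anti l, ∑ e ∈ anti D, ∑ j ∈ pdiv e.2,
      mu j * TS κ X (cv (ms q.1 (e.1 * j) f) (ms q.2 e.2 g)) := by
    have e1 : TS κ X (ms l D (cv f g)) = ∑ n ∈ pball X, ∑ q ∈ anti l, ∑ e ∈ anti D,
        ∑ j ∈ pdiv e.2, mu j * (cv (ms q.1 (e.1 * j) f) (ms q.2 e.2 g) n * cb κ n) := by
      refine Finset.sum_congr rfl fun n hn => ?_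
      by_cases hc : IsCoprime κ n
      · rw [ms_cv hl hD (mem_pball.1 hn).2 (hc.of_isCoprime_of_dvd_left hκ)]
        simp only [Finset.sum_mul, mul_assoc]
      · simp [cb_eq_zero_of_not_coprime hc]
    rw [e1, Finset.sum_comm]
    refine Finset.sum_congr rfl fun q _ => ?_
    rw [Finset.sum_comm]
    refine Finset.sum_congr rfl fun e _ => ?_
    rw [Finset.sum_comm]
    refine Finset.sum_congr rfl fun j _ => ?_
    rw [TS, Finset.mul_sum]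
  rw [e]
  refine norm_sum_le_of_le _ fun q hq => norm_sum_le_of_le _ fun e _ =>
    norm_sum_le_of_le _ fun j _ => ?_
  obtain ⟨h1, h2, -⟩ := mem_anti.1 hq
  rw [TS_cv κ X fun a b ha hb h3 h4 => ?_, norm_mul, norm_mul]
  · exact mul_le_of_le_one_left (by positivity) (norm_mu_le j)
  · obtain ⟨i1, i2⟩ := expc_ms h1 h3
    obtain ⟨i3, i4⟩ := expc_ms h2 h4
    exact (mul_le_mul i2 i4 (nm_nonneg _) (nm_nonneg _)).trans
      (h _ _ (h1.mul ha) (h2.mul hb) i1 i3)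

theorem exd_cs {ι κ : Type*} (T : Finset ι) (S : Finset κ) (F : ι → κ → ℝ) {N H : ℝ}
    (hN : (T.card : ℝ) ≤ N) (hH : 0 ≤ H) (h : ∀ i ∈ T, ∑ k ∈ S, F i k ^ 2 ≤ H) :
    ∑ k ∈ S, (∑ i ∈ T, F i k) ^ 2 ≤ N ^ 2 * H := by
  have h0 : (0 : ℝ) ≤ T.card := Nat.cast_nonneg _
  calc _ ≤ ∑ k ∈ S, (T.card : ℝ) * ∑ i ∈ T, F i k ^ 2 :=
        Finset.sum_le_sum fun k _ => sq_sum_le_card_mul_sum_sq
    _ = (T.card : ℝ) * ∑ i ∈ T, ∑ k ∈ S, F i k ^ 2 := by rw [← Finset.mul_sum, Finset.sum_comm]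
    _ ≤ (T.card : ℝ) * (T.card * H) := by
        refine mul_le_mul_of_nonneg_left ((Finset.sum_le_sum h).trans (le_of_eq ?_)) h0
        rw [Finset.sum_const, nsmul_eq_mul]
    _ = (T.card : ℝ) ^ 2 * H := by ring
    _ ≤ _ := mul_le_mul_of_nonneg_right (pow_le_pow_left₀ h0 hN 2) hH

/-- `norm_TS_ms_cv` and Cauchy–Schwarz three times (`sq_sum_le_card_mul_sum_sq`); `card_anti`,
`dn e.2 ≤ dn D`; note `e.1 j ∣ e.1 e.2 = D` -/
theorem l2_two {l D : O} (hl : Prim l) (hD : Prim D) (S : Finset O) (κ : O → O) (hκ : ∀ k ∈ S, l ∣ κ k)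
    (w : O → ℝ) (hw : ∀ k ∈ S, 0 ≤ w k) (X : ℝ) {f g : O → ℂ}
    (h : ∀ a b, Prim a → Prim b → f a ≠ 0 → g b ≠ 0 → nm a * nm b ≤ X) {H : ℝ}
    (hH : ∀ l₁ l₂ a₁ a₂ : O, Prim l₁ → Prim l₂ → Prim a₁ → Prim a₂ → l₁ * l₂ = l → a₁ ∣ D → a₂ ∣ D →
      ∑ k ∈ S, (w k * (‖TS (κ k) X (ms l₁ a₁ f)‖ * ‖TS (κ k) X (ms l₂ a₂ g)‖)) ^ 2 ≤ H) :
    ∑ k ∈ S, (w k * ‖TS (κ k) X (ms l D (cv f g))‖) ^ 2 ≤ (dn l * dn D ^ 2) ^ 2 * H := by
  have hH0 : 0 ≤ H := (Finset.sum_nonneg fun k _ => sq_nonneg _).trans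
    (hH l 1 1 1 hl prim_one prim_one prim_one (mul_one l) (one_dvd D) (one_dvd D))
  have h1 : ∑ k ∈ S, (w k * ‖TS (κ k) X (ms l D (cv f g))‖) ^ 2 ≤
      ∑ k ∈ S, (∑ q ∈ anti l, ∑ e ∈ anti D, ∑ j ∈ pdiv e.2,
        w k * (‖TS (κ k) X (ms q.1 (e.1 * j) f)‖ * ‖TS (κ k) X (ms q.2 e.2 g)‖)) ^ 2 := by
    refine Finset.sum_le_sum fun k hk => pow_le_pow_left₀ (mul_nonneg (hw k hk) (norm_nonneg _)) ?_ 2
    simp only [← Finset.mul_sum]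
    exact mul_le_mul_of_nonneg_left (norm_TS_ms_cv hl hD (hκ k hk) X h) (hw k hk)
  refine h1.trans ?_
  rw [show (dn l * dn D ^ 2) ^ 2 * H = dn l ^ 2 * (dn D ^ 2 * (dn D ^ 2 * H)) by ring]
  refine exd_cs _ _ _ (card_anti hl).le (by positivity) fun q hq => ?_
  refine exd_cs _ _ _ (card_anti hD).le (by positivity) fun e he => ?_
  obtain ⟨hq1, hq2, hq⟩ := mem_anti.1 hq
  obtain ⟨he1, he2, he⟩ := mem_anti.1 he
  have hd : e.2 ∣ D := he ▸ dvd_mul_left _ _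
  refine exd_cs _ _ _ (dn_le_of_dvd hD.ne_zero hd) hH0 fun j hj => ?_
  obtain ⟨hj1, hj⟩ := (mem_pdiv he2.ne_zero).1 hj
  exact hH _ _ _ _ hq1 hq2 (he1.mul hj1) he2 hq (he ▸ mul_dvd_mul_left _ hj) hd

/-- `l2_two` with `w = 1`; its hypothesis is `l2_two` with `w k = ‖TS (κ k) X (ms l₁ a₁ f)‖`
(`dn l₂ ≤ dn l`, `dn a₂ ≤ dn D`; `0 ≤ H` follows from `hH` at `(l, 1, 1, 1, 1, 1)`) -/
theorem l2_three {l D : O} (hl : Prim l) (hD : Prim D) (S : Finset O) (κ : O → O) (hκ : ∀ k ∈ S, l ∣ κ k)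
    (X : ℝ) {f g g' : O → ℂ}
    (h : ∀ a b, Prim a → Prim b → f a ≠ 0 → cv g g' b ≠ 0 → nm a * nm b ≤ X)
    (h' : ∀ a b, Prim a → Prim b → g a ≠ 0 → g' b ≠ 0 → nm a * nm b ≤ X) {H : ℝ}
    (hH : ∀ l₁ l₂ l₃ a₁ a₂ a₃ : O, Prim l₁ → Prim l₂ → Prim l₃ → Prim a₁ → Prim a₂ → Prim a₃ →
      l₁ * l₂ * l₃ = l → a₁ ∣ D → a₂ ∣ D → a₃ ∣ D →
      ∑ k ∈ S, (‖TS (κ k) X (ms l₁ a₁ f)‖ *
        (‖TS (κ k) X (ms l₂ a₂ g)‖ * ‖TS (κ k) X (ms l₃ a₃ g')‖)) ^ 2 ≤ H) :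
    ∑ k ∈ S, ‖TS (κ k) X (ms l D (cv f (cv g g')))‖ ^ 2 ≤ (dn l * dn D ^ 2) ^ 4 * H := by
  have hH0 : 0 ≤ H := (Finset.sum_nonneg fun k _ => sq_nonneg _).trans
    (hH l 1 1 1 1 1 hl prim_one prim_one prim_one prim_one prim_one (by simp) (one_dvd D) (one_dvd D)
      (one_dvd D))
  have key := l2_two hl hD S κ hκ (fun _ => 1) (fun _ _ => zero_le_one) X h
    (H := (dn l * dn D ^ 2) ^ 2 * H) ?_
  · simp only [one_mul] at key
    refine key.trans (le_of_eq ?_)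
    ring
  intro l₁ l₂ a₁ a₂ h₁ h₂ ha₁ ha₂ hll hd₁ hd₂
  have hl₂ : l₂ ∣ l := hll ▸ dvd_mul_left _ _
  simp only [one_mul]
  refine (l2_two h₂ ha₂ S κ (fun k hk => hl₂.trans (hκ k hk)) (fun k => ‖TS (κ k) X (ms l₁ a₁ f)‖)
    (fun _ _ => norm_nonneg _) X h' (H := H) ?_).trans ?_
  · intro m₁ m₂ b₁ b₂ g₁ g₂ hb₁ hb₂ hmm e₁ e₂
    exact hH _ _ _ _ _ _ h₁ g₁ g₂ ha₁ hb₁ hb₂ (by rw [mul_assoc, hmm, hll]) hd₁ (e₁.trans hd₂)
      (e₂.trans hd₂)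
  · have e₁ := dn_le_of_dvd hl.ne_zero hl₂
    have e₂ := dn_le_of_dvd hD.ne_zero hd₂
    have := dn_nonneg l₂
    have := dn_nonneg a₂
    have := dn_nonneg l
    gcongr

theorem RB_eq_sum (T : Finset O) (Γ : O → ℂ) (X : ℝ) (l κ : O) :
    RB T Γ X l κ = ∑ d ∈ T, mu d * TS κ X (ms l (d ^ 2) Γ) := by
  simp only [RB, TS, mq, ms, Finset.sum_mul, Finset.mul_sum]
  rw [Finset.sum_comm]
  refine Finset.sum_congr rfl fun d _ => Finset.sum_congr rfl fun n _ => ?_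
  split_ifs
  · ring
  · simp

/-- `RB_eq_sum`, Cauchy–Schwarz over `d` -/
theorem l2_RB (T S : Finset O) (Γ : O → ℂ) (X : ℝ) (l : O) (κ : O → O) {H : ℝ}
    (hH : ∀ d ∈ T, ∑ k ∈ S, ‖TS (κ k) X (ms l (d ^ 2) Γ)‖ ^ 2 ≤ H) :
    ∑ k ∈ S, ‖RB T Γ X l (κ k)‖ ^ 2 ≤ (T.card : ℝ) ^ 2 * H := by
  calc _ ≤ ∑ k ∈ S, (T.card : ℝ) * ∑ d ∈ T, ‖TS (κ k) X (ms l (d ^ 2) Γ)‖ ^ 2 := by
        refine Finset.sum_le_sum fun k _ => le_trans ?_ sq_sum_le_card_mul_sum_sq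
        rw [RB_eq_sum]
        refine pow_le_pow_left₀ (norm_nonneg _)
          ((norm_sum_le _ _).trans (Finset.sum_le_sum fun d _ => ?_)) 2
        rw [norm_mul]
        exact mul_le_of_le_one_left (norm_nonneg _) (norm_mu_le d)
    _ = (T.card : ℝ) * ∑ d ∈ T, ∑ k ∈ S, ‖TS (κ k) X (ms l (d ^ 2) Γ)‖ ^ 2 := by
        rw [← Finset.mul_sum, Finset.sum_comm]
    _ ≤ (T.card : ℝ) * ∑ _d ∈ T, H :=
        mul_le_mul_of_nonneg_left (Finset.sum_le_sum hH) (Nat.cast_nonneg _)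
    _ = _ := by rw [Finset.sum_const, nsmul_eq_mul]; ring

theorem RB_split (T : Finset O) (p : O → Prop) [DecidablePred p] (Γ : O → ℂ) (X : ℝ) (l κ : O) :
    RB T Γ X l κ = RB (T.filter p) Γ X l κ + RB (T.filter fun d => ¬ p d) Γ X l κ := by
  rw [RB_eq_sum, RB_eq_sum, RB_eq_sum, Finset.sum_filter_add_sum_filter_not]

theorem l2_RB_split (T S : Finset O) (p : O → Prop) [DecidablePred p] (Γ : O → ℂ) (X : ℝ) (l : O)
    (κ : O → O) : ∑ k ∈ S, ‖RB T Γ X l (κ k)‖ ^ 2 ≤ 2 * ∑ k ∈ S, ‖RB (T.filter p) Γ X l (κ k)‖ ^ 2 +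
      2 * ∑ k ∈ S, ‖RB (T.filter fun d => ¬ p d) Γ X l (κ k)‖ ^ 2 := by
  rw [Finset.mul_sum, Finset.mul_sum, ← Finset.sum_add_distrib]
  refine Finset.sum_le_sum fun k _ => ?_
  rw [RB_split T p]
  refine (pow_le_pow_left₀ (norm_nonneg _) (norm_add_le _ _) 2).trans ?_
  nlinarith [sq_nonneg (‖RB (T.filter p) Γ X l (κ k)‖ - ‖RB (T.filter fun d => ¬ p d) Γ X l (κ k)‖)]

end Crest.Agent.R12
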