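import Crest.Agent.R12.QR.Par

/-!
Row 12, block QB, dual rows (owner helper72): rows far from cubes (large sieve) and very long ranges.
-/

set_option autoImplicit false

namespace Crest.Agent.R12

open Crest.Agent.R17
open scoped ComplexConjugate

/-- `norm_mq_le`, `Par.norm_G3_le`, `Par.G3_supp`, `dn n ≤ dn (l n)`, `dn_pow_le (k + 3)`, `N (l n) ≤ X ≤ Y` -/
theorem coef_le (k : ℕ) {θ : ℝ} (hθ : 0 < θ) : ∃ C : ℝ, 0 < C ∧ ∀ (ε Y R K X N₀ M₂ M₃ σ t₂ t₃ : ℝ) (c : O → ℂ)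
    (j : ℤ) (T : Finset O) (l n : O), Par ε k Y R K X N₀ M₂ M₃ c → (∀ d ∈ T, Prim d) → Prim l → Prim n →
    ‖mq T n * G3 j c M₂ t₂ M₃ t₃ σ R (l * n)‖ ≤ C * Y ^ θ := by
  obtain ⟨C, hC, h⟩ := dn_pow_le (k + 3) hθ
  refine ⟨C, hC, fun ε Y R K X N₀ M₂ M₃ σ t₂ t₃ c j T l n hP hT hl hn => ?_⟩
  have hY := hP.one_le_Y
  by_cases h0 : G3 j c M₂ t₂ M₃ t₃ σ R (l * n) = 0
  · rw [h0, mul_zero, norm_zero]
    positivity
  have h1 := (hP.G3_supp j σ t₂ t₃ h0).trans hP.X_le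
  have hln := hl.mul hn
  have h2 := (norm_mq_le hT hn.ne_zero).trans (dn_le_of_dvd hln.ne_zero (dvd_mul_left n l))
  have h3 := hP.norm_G3_le j σ t₂ t₃ hln
  rw [norm_mul]
  calc _ ≤ dn (l * n) * dn (l * n) ^ (k + 2) := mul_le_mul h2 h3 (norm_nonneg _) (dn_nonneg _)
    _ = dn (l * n) ^ (k + 3) := by ring
    _ ≤ C * nm (l * n) ^ θ := h _ hln.ne_zero
    _ ≤ C * Y ^ θ := mul_le_mul_of_nonneg_left (Real.rpow_le_rpow (nm_nonneg _) h1 hθ.le) hC.le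

/-- `StAllG` with `ε = 10⁻⁶`, `M = X / N l ≥ 1`, rows `κ ∈ S` and coefficients
`[Prim n] mq T n · G3 (l n) · cb (h l³) n / W`, `W = C Y^(10⁻⁶)` (`coef_le`); they vanish for `N n > X / N l`, so the sum over
`pball X` is the sum over `pball M`; `mq T n ≠ 0` gives `d ∈ T` with `d² ∣ n`, and `d²` is squarefull;
`U M ≤ Y²`. -/
theorem far_gen (h4 : StAllG) (k : ℕ) : ∃ C : ℝ, 0 < C ∧ ∀ (ε Y R K X N₀ M₂ M₃ σ t₂ t₃ U F Q : ℝ) (c : O → ℂ)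
    (j : ℤ) (T S : Finset O) (l h : O), Par ε k Y R K X N₀ M₂ M₃ c → Lab X l h → 1 ≤ U → U ≤ Y → 1 ≤ F →
    1 / 2 ≤ Q → (∀ d ∈ T, Prim d ∧ F ≤ nm d ^ 2) →
    (∀ κ ∈ S, κ ≠ 0 ∧ nm κ ≤ U ∧ ∀ k₀ m : O, κ = k₀ * m ^ 3 → Q < nm k₀) →
    ∑ κ ∈ S, ‖RB T (G3 j c M₂ t₂ M₃ t₃ σ R) X l (κ * h * l ^ 3)‖ ^ 2 ≤
      C * (Y ^ (1 / 100000 : ℝ) * ((U + U ^ (1 / 3 : ℝ) * Q ^ (-(3 / 10) : ℝ) * (X / nm l) / F +
        (U * (X / nm l)) ^ (2 / 3 : ℝ) * F ^ (-(2 / 3) : ℝ)) * (X / nm l))) := by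
  classical
  obtain ⟨C₁, h₁⟩ := h4 (1 / 1000000) (by norm_num)
  obtain ⟨C₂, hC₂, h₂⟩ := coef_le k (θ := 1 / 1000000) (by norm_num)
  refine ⟨C₂ ^ 2 * (|C₁| + 1), by positivity,
    fun ε Y R K X N₀ M₂ M₃ σ t₂ t₃ U F Q c j T S l h hP hL hU hUY hF hQ hT hS => ?_⟩
  have hY1 := hP.one_le_Y
  have hY0 : 0 < Y := by linarith
  have hl1 : 1 ≤ nm l := one_le_nm hL.ne_zero
  have hl0 : 0 < nm l := by linarith
  set M : ℝ := X / nm l with hM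
  have hM1 : 1 ≤ M := (one_le_div hl0).2 hL.hlX
  have hMX : M ≤ X := div_le_self (by linarith [hP.one_le_X]) hl1
  have hMY : M ≤ Y := hMX.trans hP.X_le
  set W : ℝ := C₂ * Y ^ (1 / 1000000 : ℝ) with hW
  have hW0 : 0 < W := by positivity
  set Γ := G3 j c M₂ t₂ M₃ t₃ σ R with hΓ
  set e : O → ℂ := fun n => if Prim n then mq T n * Γ (l * n) * cb (h * l ^ 3) n / (W : ℂ) else 0 with he
  have he1 : ∀ n, ‖e n‖ ≤ 1 := by
    intro n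
    simp only [he]
    split_ifs with hn
    · rw [norm_div, Complex.norm_real, Real.norm_of_nonneg hW0.le, div_le_one hW0, norm_mul]
      exact (mul_le_of_le_one_right (norm_nonneg _) (norm_cb_le _ _)).trans
        (h₂ ε Y R K X N₀ M₂ M₃ σ t₂ t₃ c j T l n hP (fun d hd => (hT d hd).1) hL.hl.1 hn)
    · simp
  have he2 : ∀ n, e n ≠ 0 → ∃ s : O, Sqfull s ∧ s ∣ n ∧ F ≤ nm s := by
    intro n hn
    have h1 : mq T n ≠ 0 := by
      intro h0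
      apply hn
      simp [he, h0]
    obtain ⟨d, hd, h2⟩ := Finset.exists_ne_zero_of_sum_ne_zero h1
    have h3 : d ^ 2 ∣ n := by
      by_contra h3
      exact h2 (if_neg h3)
    refine ⟨d ^ 2, fun p hp hpd => pow_dvd_pow_of_dvd (hp.dvd_of_dvd_pow hpd) 2, h3, ?_⟩
    rw [nm_pow]
    exact (hT d hd).2
  have hrow : ∀ κ : O, RB T Γ X l (κ * h * l ^ 3) = (W : ℂ) * ∑ n ∈ pball M, e n * cb κ n := by
    intro κ
    have hWc : (W : ℂ) ≠ 0 := Complex.ofReal_ne_zero.2 hW0.ne'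
    unfold RB TS
    rw [Finset.mul_sum]
    symm
    refine Finset.sum_subset_zero_on_sdiff
      (fun n hn => mem_pball.2 ⟨(mem_pball.1 hn).1.trans hMX, (mem_pball.1 hn).2⟩) ?_ ?_
    · intro n hn
      obtain ⟨h1, h2⟩ := Finset.mem_sdiff.1 hn
      have h3 : Γ (l * n) = 0 := by
        by_contra h3
        have h4 := hP.G3_supp j σ t₂ t₃ h3
        rw [nm_mul] at h4
        exact h2 (mem_pball.2 ⟨by rw [hM, le_div_iff₀ hl0]; linarith, (mem_pball.1 h1).2⟩)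
      simp [h3]
    · intro n hn
      simp only [he, if_pos (mem_pball.1 hn).2]
      rw [mul_assoc κ, cb_mul_left κ]
      field_simp
  have e1 := h₁ U M F Q S e hU hM1 hF hQ hS he1 he2
  set Z : ℝ := U + U ^ (1 / 3 : ℝ) * Q ^ (-(3 / 10) : ℝ) * M / F +
    (U * M) ^ (2 / 3 : ℝ) * F ^ (-(2 / 3) : ℝ) with hZ
  have hQ0 : 0 < Q := by linarith
  have hZ0 : 0 ≤ Z := by positivity
  have e2 : (U * M) ^ (1 / 1000000 : ℝ) ≤ Y ^ (1 / 1000000 : ℝ) * Y ^ (1 / 1000000 : ℝ) := by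
    rw [← Real.mul_rpow hY0.le hY0.le]
    exact Real.rpow_le_rpow (by positivity) (mul_le_mul hUY hMY (by positivity) hY0.le) (by norm_num)
  have e3 : (Y ^ (1 / 1000000 : ℝ)) ^ 4 ≤ Y ^ (1 / 100000 : ℝ) := by
    rw [← Real.rpow_natCast, ← Real.rpow_mul hY0.le]
    exact Real.rpow_le_rpow_of_exponent_le hY1 (by norm_num)
  have e4 : C₁ * (U * M) ^ (1 / 1000000 : ℝ) ≤
      (|C₁| + 1) * (Y ^ (1 / 1000000 : ℝ) * Y ^ (1 / 1000000 : ℝ)) :=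
    mul_le_mul (by linarith [le_abs_self C₁]) e2 (by positivity) (by positivity)
  simp only [hrow, norm_mul, mul_pow, Complex.norm_real, Real.norm_of_nonneg hW0.le]
  rw [← Finset.mul_sum]
  calc W ^ 2 * ∑ κ ∈ S, ‖∑ n ∈ pball M, e n * cb κ n‖ ^ 2
      ≤ W ^ 2 * ((|C₁| + 1) * (Y ^ (1 / 1000000 : ℝ) * Y ^ (1 / 1000000 : ℝ)) * Z * M) := by
        refine mul_le_mul_of_nonneg_left (e1.trans ?_) (by positivity)
        gcongr
    _ = C₂ ^ 2 * (|C₁| + 1) * ((Y ^ (1 / 1000000 : ℝ)) ^ 4 * (Z * M)) := by rw [hW]; ring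
    _ ≤ _ := by gcongr

theorem farc_mid {u s : ℝ} (hu : 0 < u) (h1 : 1 / 2 ≤ s) (h2 : s ≤ 5 / 2) :
    u ^ s ≤ u ^ (1 / 2 : ℝ) + u ^ (5 / 2 : ℝ) := by
  rcases le_total u 1 with h | h
  · exact (Real.rpow_le_rpow_of_exponent_ge hu h h1).trans (le_add_of_nonneg_right (by positivity))
  · exact (Real.rpow_le_rpow_of_exponent_le h h2).trans (le_add_of_nonneg_left (by positivity))

theorem farc_gain {y u L F : ℝ} (hy : 1 ≤ y) (hu : 0 < u) (hL : 1 ≤ L) (hF : 1 ≤ F)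
    (H : y ≤ F ∨ y ≤ L ∨ y ≤ u) :
    u ^ (2 / 3 : ℝ) * L ^ (-(2 / 3) : ℝ) * F ^ (-(2 / 3) : ℝ) ≤
      y ^ (-(2 / 3) : ℝ) * (u ^ (1 / 2 : ℝ) + u ^ (5 / 2 : ℝ)) := by
  have hy0 : 0 < y := by linarith
  have a1 : L ^ (-(2 / 3) : ℝ) ≤ 1 := Real.rpow_le_one_of_one_le_of_nonpos hL (by norm_num)
  have a2 : F ^ (-(2 / 3) : ℝ) ≤ 1 := Real.rpow_le_one_of_one_le_of_nonpos hF (by norm_num)
  have a3 := farc_mid (s := 2 / 3) hu (by norm_num) (by norm_num)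
  have hL0 : 0 < L := by linarith
  have hF0 : 0 < F := by linarith
  rcases H with H | H | H
  · have b1 : F ^ (-(2 / 3) : ℝ) ≤ y ^ (-(2 / 3) : ℝ) :=
      Real.rpow_le_rpow_of_nonpos hy0 H (by norm_num)
    calc _ ≤ (u ^ (1 / 2 : ℝ) + u ^ (5 / 2 : ℝ)) * 1 * y ^ (-(2 / 3) : ℝ) := by gcongr
      _ = _ := by ring
  · have b1 : L ^ (-(2 / 3) : ℝ) ≤ y ^ (-(2 / 3) : ℝ) :=
      Real.rpow_le_rpow_of_nonpos hy0 H (by norm_num)
    calc _ ≤ (u ^ (1 / 2 : ℝ) + u ^ (5 / 2 : ℝ)) * y ^ (-(2 / 3) : ℝ) * 1 := by gcongr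
      _ = _ := by ring
  · have b1 : u ^ (-(11 / 6) : ℝ) ≤ y ^ (-(2 / 3) : ℝ) :=
      (Real.rpow_le_rpow_of_nonpos hy0 H (by norm_num)).trans
        (Real.rpow_le_rpow_of_exponent_le hy (by norm_num))
    have b2 : u ^ (2 / 3 : ℝ) = u ^ (-(11 / 6) : ℝ) * u ^ (5 / 2 : ℝ) := by
      rw [← Real.rpow_add hu]; norm_num
    have b3 : u ^ (5 / 2 : ℝ) ≤ u ^ (1 / 2 : ℝ) + u ^ (5 / 2 : ℝ) :=
      le_add_of_nonneg_left (by positivity)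
    rw [b2]
    calc _ ≤ y ^ (-(2 / 3) : ℝ) * (u ^ (1 / 2 : ℝ) + u ^ (5 / 2 : ℝ)) * 1 * 1 := by gcongr
      _ = _ := by ring

/-- pure numerics; `u = U / K`.  First term: `u ≤ u^(1/2) + u^(5/2)`, exponent `0.83`.  Second: exponent
`0.10667 + 1.00002 - 0.0604 + 0.00001`, `L^(2/3 - 2)`.  Third: `0.21334 + 0.83335 + 0.00001` and a gain
`Y^(-2/7500)` from `F^(-2/3)`, from `L^(-5/3) = L⁻¹ L^(-2/3)`, or from `u^(2/3) = u^(5/2) u^(-11/6)`. -/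
theorem far_num {Y K X U L F Q : ℝ} (hY : 2 ≤ Y) (hK0 : 0 < K) (hK : K ≤ Y ^ (32001 / 100000 : ℝ))
    (hX : X ≤ Y ^ (50001 / 100000 : ℝ)) (hL : 1 ≤ L) (hLX : L ≤ X) (hU : 1 ≤ U) (hF : 1 ≤ F) (hQ : 0 < Q)
    (H2 : Q ^ (-(3 / 10) : ℝ) / F ≤ 2 * Y ^ (-(604 / 10000) : ℝ) * L ^ (2 / 3 : ℝ))
    (H3 : Y ^ (1 / 2500 : ℝ) ≤ F ∨ Y ^ (1 / 2500 : ℝ) ≤ L ∨ K * Y ^ (1 / 2500 : ℝ) ≤ U) :
    Y ^ (1 / 100000 : ℝ) * ((U + U ^ (1 / 3 : ℝ) * Q ^ (-(3 / 10) : ℝ) * (X / L) / F +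
        (U * (X / L)) ^ (2 / 3 : ℝ) * F ^ (-(2 / 3) : ℝ)) * (X / L)) ≤ 4 * tgt Y K U L := by
  have hY1 : 1 ≤ Y := by linarith
  have hY0 : 0 < Y := by linarith
  have hL0 : 0 < L := by linarith
  have hX0 : 0 < X := by linarith
  have hF0 : 0 < F := by linarith
  unfold tgt
  set u := U / K with hu
  have hu0 : 0 < u := div_pos (by linarith) hK0
  have hUu : U = u * K := by rw [hu]; field_simp
  set T := Y ^ (10465 / 10000 : ℝ) with hT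
  set w := u ^ (1 / 2 : ℝ) + u ^ (5 / 2 : ℝ) with hw
  have hw0 : 0 ≤ w := by positivity
  have hT0 : 0 ≤ T := by positivity
  have hKp : ∀ s : ℝ, 0 ≤ s → K ^ s ≤ Y ^ (32001 / 100000 * s) := fun s hs => by
    rw [Real.rpow_mul hY0.le]
    exact Real.rpow_le_rpow hK0.le hK hs
  have hXp : ∀ s : ℝ, 0 ≤ s → X ^ s ≤ Y ^ (50001 / 100000 * s) := fun s hs => by
    rw [Real.rpow_mul hY0.le]
    exact Real.rpow_le_rpow hX0.le hX hs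
  have t1 : Y ^ (1 / 100000 : ℝ) * (U * (X / L)) ≤ T * (L⁻¹ * w) := by
    have a1 : u ≤ w := by
      have := farc_mid (s := 1) hu0 (by norm_num) (by norm_num)
      rwa [Real.rpow_one] at this
    have a2 : Y ^ (1 / 100000 : ℝ) * (K * X) ≤ T := by
      calc _ ≤ Y ^ (1 / 100000 : ℝ) * (Y ^ (32001 / 100000 : ℝ) * Y ^ (50001 / 100000 : ℝ)) := by
            gcongr
        _ ≤ T := by
            rw [← Real.rpow_add hY0, ← Real.rpow_add hY0]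
            exact Real.rpow_le_rpow_of_exponent_le hY1 (by norm_num)
    calc _ = Y ^ (1 / 100000 : ℝ) * (K * X) * (L⁻¹ * u) := by rw [hUu]; ring
      _ ≤ _ := by gcongr
  have t2 : Y ^ (1 / 100000 : ℝ) * (U ^ (1 / 3 : ℝ) * Q ^ (-(3 / 10) : ℝ) * (X / L) / F * (X / L)) ≤
      2 * (T * (L ^ (-(4 / 3) : ℝ) * u ^ (1 / 3 : ℝ))) := by
    have a1 := hKp (1 / 3) (by norm_num)
    have a2 : Y ^ (1 / 100000 : ℝ) * (K ^ (1 / 3 : ℝ) * (X * X) * Y ^ (-(604 / 10000) : ℝ)) ≤ T := by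
      calc _ ≤ Y ^ (1 / 100000 : ℝ) * (Y ^ (32001 / 100000 * (1 / 3) : ℝ) *
            (Y ^ (50001 / 100000 : ℝ) * Y ^ (50001 / 100000 : ℝ)) * Y ^ (-(604 / 10000) : ℝ)) := by
            gcongr
        _ ≤ T := by
            rw [← Real.rpow_add hY0, ← Real.rpow_add hY0, ← Real.rpow_add hY0, ← Real.rpow_add hY0]
            exact Real.rpow_le_rpow_of_exponent_le hY1 (by norm_num)
    have a3 : L ^ (-(4 / 3) : ℝ) = L ^ (2 / 3 : ℝ) * (L⁻¹ * L⁻¹) := by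
      rw [← Real.rpow_neg_one, ← Real.rpow_add hL0, ← Real.rpow_add hL0]
      norm_num
    calc _ = Y ^ (1 / 100000 : ℝ) * (u ^ (1 / 3 : ℝ) * K ^ (1 / 3 : ℝ) * (X * X) * (L⁻¹ * L⁻¹) *
            (Q ^ (-(3 / 10) : ℝ) / F)) := by
          rw [hUu, Real.mul_rpow hu0.le hK0.le]; ring
      _ ≤ Y ^ (1 / 100000 : ℝ) * (u ^ (1 / 3 : ℝ) * K ^ (1 / 3 : ℝ) * (X * X) * (L⁻¹ * L⁻¹) *
            (2 * Y ^ (-(604 / 10000) : ℝ) * L ^ (2 / 3 : ℝ))) := by gcongr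
      _ = 2 * (Y ^ (1 / 100000 : ℝ) * (K ^ (1 / 3 : ℝ) * (X * X) * Y ^ (-(604 / 10000) : ℝ)) *
            (L ^ (-(4 / 3) : ℝ) * u ^ (1 / 3 : ℝ))) := by rw [a3]; ring
      _ ≤ _ := by gcongr
  have t3 : Y ^ (1 / 100000 : ℝ) * ((U * (X / L)) ^ (2 / 3 : ℝ) * F ^ (-(2 / 3) : ℝ) * (X / L)) ≤
      T * (L⁻¹ * w) := by
    have a0 := farc_gain (y := Y ^ (1 / 2500 : ℝ)) (Real.one_le_rpow hY1 (by norm_num)) hu0 hL hF
      (by
        rcases H3 with H | H | H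
        · exact Or.inl H
        · exact Or.inr (Or.inl H)
        · refine Or.inr (Or.inr ?_)
          rw [hu, le_div_iff₀ hK0, mul_comm]
          exact H)
    rw [← Real.rpow_mul hY0.le] at a0
    have a1 := hKp (2 / 3) (by norm_num)
    have a1' := hXp (2 / 3) (by norm_num)
    have a2 : Y ^ (1 / 100000 : ℝ) * (K ^ (2 / 3 : ℝ) * X ^ (2 / 3 : ℝ) * X *
        Y ^ (1 / 2500 * -(2 / 3) : ℝ)) ≤ T := by
      calc _ ≤ Y ^ (1 / 100000 : ℝ) * (Y ^ (32001 / 100000 * (2 / 3) : ℝ) *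
            Y ^ (50001 / 100000 * (2 / 3) : ℝ) * Y ^ (50001 / 100000 : ℝ) *
            Y ^ (1 / 2500 * -(2 / 3) : ℝ)) := by
            gcongr
        _ ≤ T := by
            rw [← Real.rpow_add hY0, ← Real.rpow_add hY0, ← Real.rpow_add hY0, ← Real.rpow_add hY0]
            exact Real.rpow_le_rpow_of_exponent_le hY1 (by norm_num)
    calc _ = Y ^ (1 / 100000 : ℝ) * (K ^ (2 / 3 : ℝ) * X ^ (2 / 3 : ℝ) * X * L⁻¹ *
            (u ^ (2 / 3 : ℝ) * L ^ (-(2 / 3) : ℝ) * F ^ (-(2 / 3) : ℝ))) := by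
          rw [hUu, Real.mul_rpow (by positivity) (by positivity), Real.mul_rpow hu0.le hK0.le,
            Real.div_rpow hX0.le hL0.le, Real.rpow_neg hL0.le]
          ring
      _ ≤ Y ^ (1 / 100000 : ℝ) * (K ^ (2 / 3 : ℝ) * X ^ (2 / 3 : ℝ) * X * L⁻¹ *
            (Y ^ (1 / 2500 * -(2 / 3) : ℝ) * w)) := by gcongr
      _ = Y ^ (1 / 100000 : ℝ) * (K ^ (2 / 3 : ℝ) * X ^ (2 / 3 : ℝ) * X *
            Y ^ (1 / 2500 * -(2 / 3) : ℝ)) * (L⁻¹ * w) := by ring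
      _ ≤ _ := by gcongr
  have p1 : 0 ≤ T * (L⁻¹ * w) := by positivity
  have p2 : 0 ≤ T * (L ^ (-(4 / 3) : ℝ) * u ^ (1 / 3 : ℝ)) := by positivity
  rw [add_mul, add_mul, mul_add, mul_add, mul_add T]
  linarith

/-- trivially: at most `11 U` rows, `‖RB‖ ≤ 11 (X / N l) · C Y^(1/100)`; `u = U / K ≥ Y^0.67`, so
`U = u K ≤ u^(5/2) Y^(-1) K` -/
theorem big_sum (k : ℕ) : ∃ C : ℝ, 0 < C ∧ ∀ (ε Y R K X N₀ M₂ M₃ σ t₂ t₃ U : ℝ) (c : O → ℂ)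
    (j : ℤ) (T S : Finset O) (l h : O), Par ε k Y R K X N₀ M₂ M₃ c → Lab X l h → Y ≤ U →
    (∀ d ∈ T, Prim d) → (∀ κ ∈ S, κ ≠ 0 ∧ nm κ ≤ U) →
    ∑ κ ∈ S, ‖RB T (G3 j c M₂ t₂ M₃ t₃ σ R) X l (κ * h * l ^ 3)‖ ^ 2 ≤ C * tgt Y K U (nm l) := by
  classical
  obtain ⟨C, hC, hc⟩ := coef_le k (θ := 1 / 100) (by norm_num)
  refine ⟨1331 * C ^ 2, by positivity,
    fun ε Y R K X N₀ M₂ M₃ σ t₂ t₃ U c j T S l h hP hL hU hT hS => ?_⟩
  have hY := hP.one_le_Y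
  have hY0 : 0 < Y := by linarith
  have hX := hP.one_le_X
  have hK := hP.hK0
  have hl := one_le_nm hL.ne_zero
  have hl0 : 0 < nm l := by linarith
  have hU0 : 0 < U := by linarith
  have hrow : ∀ κ : O, ‖RB T (G3 j c M₂ t₂ M₃ t₃ σ R) X l κ‖ ≤
      11 * (X / nm l) * (C * Y ^ (1 / 100 : ℝ)) := by
    intro κ
    unfold RB TS
    rw [← Finset.sum_filter_of_ne (p := fun n => nm n ≤ X / nm l) fun n _ hn => ?_]
    · refine (norm_sum_le _ _).trans ((Finset.sum_le_card_nsmul _ _ (C * Y ^ (1 / 100 : ℝ))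
        fun n hn => ?_).trans ?_)
      · have hp := (mem_pball.1 (Finset.mem_filter.1 hn).1).2
        rw [norm_mul]
        exact (mul_le_of_le_one_right (norm_nonneg _) (norm_cb_le _ _)).trans
          (hc ε Y R K X N₀ M₂ M₃ σ t₂ t₃ c j T l n hP hT hL.hl.1 hp)
      · rw [nsmul_eq_mul]
        refine mul_le_mul_of_nonneg_right (card_le_of_nm_le (by positivity) fun n hn => ?_)
          (by positivity)
        exact ⟨(mem_pball.1 (Finset.mem_filter.1 hn).1).2.ne_zero, (Finset.mem_filter.1 hn).2⟩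
    · have h1 := hP.G3_supp j σ t₂ t₃ (right_ne_zero_of_mul (left_ne_zero_of_mul hn))
      rw [nm_mul] at h1
      rw [le_div_iff₀ hl0]
      linarith
  have hcard : (S.card : ℝ) ≤ 11 * U := card_le_of_nm_le hU0.le hS
  have hu : K ≤ U / K := by
    rw [le_div_iff₀ hK]
    calc K * K ≤ Y ^ (32001 / 100000 : ℝ) * Y ^ (32001 / 100000 : ℝ) :=
          mul_le_mul hP.hK hP.hK hK.le (by positivity)
      _ = Y ^ (32001 / 100000 + 32001 / 100000 : ℝ) := (Real.rpow_add hY0 _ _).symm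
      _ ≤ Y ^ (1 : ℝ) := Real.rpow_le_rpow_of_exponent_le hY (by norm_num)
      _ ≤ U := by rwa [Real.rpow_one]
  have hu1 : 1 ≤ U / K := by
    rw [le_div_iff₀ hK, one_mul]
    calc K ≤ Y ^ (32001 / 100000 : ℝ) := hP.hK
      _ ≤ Y ^ (1 : ℝ) := Real.rpow_le_rpow_of_exponent_le hY (by norm_num)
      _ ≤ U := by rwa [Real.rpow_one]
  have hU5 : U ≤ (U / K) ^ (5 / 2 : ℝ) := by
    calc U = U / K * K := by field_simp
      _ ≤ U / K * (U / K) := by gcongr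
      _ = (U / K) ^ (2 : ℝ) := by rw [Real.rpow_two, sq]
      _ ≤ _ := Real.rpow_le_rpow_of_exponent_le hu1 (by norm_num)
  have hXY : (X * Y ^ (1 / 100 : ℝ)) ^ 2 ≤ Y ^ (10465 / 10000 : ℝ) := by
    calc (X * Y ^ (1 / 100 : ℝ)) ^ 2 ≤ (Y ^ (50001 / 100000 : ℝ) * Y ^ (1 / 100 : ℝ)) ^ 2 := by
          have := hP.hX
          gcongr
      _ = Y ^ ((50001 / 100000 + 1 / 100 : ℝ) * (2 : ℕ)) := by
          rw [← Real.rpow_add hY0, Real.rpow_mul_natCast hY0.le]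
      _ ≤ _ := Real.rpow_le_rpow_of_exponent_le hY (by norm_num)
  have hL2 : (nm l)⁻¹ ^ 2 ≤ (nm l)⁻¹ := by
    rw [sq]
    exact mul_le_of_le_one_left (by positivity) (inv_le_one_of_one_le₀ hl)
  calc _ ≤ (S.card : ℝ) * (11 * (X / nm l) * (C * Y ^ (1 / 100 : ℝ))) ^ 2 := by
        rw [← nsmul_eq_mul]
        exact Finset.sum_le_card_nsmul _ _ _ fun κ _ => pow_le_pow_left₀ (norm_nonneg _) (hrow _) 2
    _ ≤ 11 * U * (11 * (X / nm l) * (C * Y ^ (1 / 100 : ℝ))) ^ 2 := by gcongr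
    _ = 1331 * C ^ 2 * ((X * Y ^ (1 / 100 : ℝ)) ^ 2 * ((nm l)⁻¹ ^ 2 * U)) := by ring
    _ ≤ 1331 * C ^ 2 * (Y ^ (10465 / 10000 : ℝ) * ((nm l)⁻¹ * (U / K) ^ (5 / 2 : ℝ))) := by gcongr
    _ ≤ _ := by
        unfold tgt
        have p1 : 0 ≤ nm l ^ (-(4 / 3) : ℝ) * (U / K) ^ (1 / 3 : ℝ) := by positivity
        have p2 : 0 ≤ (nm l)⁻¹ * (U / K) ^ (1 / 2 : ℝ) := by positivity
        gcongr
        linarith

end Crest.Agent.R12
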