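import Crest.Agent.R12.QR.Defs

/-!
Row 12, block QB, dual rows (owner helper72): consequences of the standing hypotheses.
-/

set_option autoImplicit false

namespace Crest.Agent.R12

open Crest.Agent.R17
open scoped ComplexConjugate

variable {ε : ℝ} {k : ℕ} {Y R K X N₀ M₂ M₃ : ℝ} {c : O → ℂ}

theorem Par.one_le_Y (h : Par ε k Y R K X N₀ M₂ M₃ c) : 1 ≤ Y := by
  linarith [h.hY]

theorem Par.one_le_R (h : Par ε k Y R K X N₀ M₂ M₃ c) : 1 ≤ R := by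
  exact (Real.one_le_rpow h.one_le_Y h.hε.le).trans h.hR

theorem Par.X_le (h : Par ε k Y R K X N₀ M₂ M₃ c) : X ≤ Y := by
  refine h.hX.trans ?_
  simpa using Real.rpow_le_rpow_of_exponent_le h.one_le_Y (show (50001 / 100000 : ℝ) ≤ 1 by norm_num)

theorem Par.qrp_N (h : Par ε k Y R K X N₀ M₂ M₃ c) : 1 ≤ 2 * N₀ := by
  linarith [h.hN]

theorem Par.qrp_le (h : Par ε k Y R K X N₀ M₂ M₃ c) {a b d r s : ℝ} (_ : 0 ≤ a) (hb0 : 0 ≤ b)
    (hd0 : 0 ≤ d) (hr0 : 0 ≤ r) (hs0 : 0 ≤ s) (ha : a ≤ 2 * N₀) (hb : b ≤ M₂) (hd : d ≤ M₃) (hr : r ≤ R)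
    (hs : s ≤ R) : a * b * d * (r * s) ≤ X := by
  have h1 := h.qrp_N
  have h2 := h.hM₂
  have h3 := h.hM₃
  have h4 := h.one_le_R
  refine le_trans ?_ h.hXX
  rw [sq]
  gcongr

theorem Par.one_le_X (h : Par ε k Y R K X N₀ M₂ M₃ c) : 1 ≤ X := by
  simpa using h.qrp_le zero_le_one zero_le_one zero_le_one zero_le_one zero_le_one h.qrp_N h.hM₂ h.hM₃
    h.one_le_R h.one_le_R

theorem Par.NM_le (h : Par ε k Y R K X N₀ M₂ M₃ c) : 2 * N₀ * (M₂ * M₃) ≤ X := by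
  have h1 := h.qrp_N
  have h2 := h.hM₂
  have h3 := h.hM₃
  have := h.qrp_le (by positivity) (by positivity) (by positivity) zero_le_one zero_le_one le_rfl le_rfl
    le_rfl h.one_le_R h.one_le_R
  linarith

theorem Par.N_le (h : Par ε k Y R K X N₀ M₂ M₃ c) : 2 * N₀ ≤ Y ^ (17001 / 100000 : ℝ) := by
  have hY : 0 < Y := by linarith [h.hY]
  have h1 := h.qrp_N
  refine le_of_mul_le_mul_right ?_ (Real.rpow_pos_of_pos hY (33 / 100 : ℝ))
  rw [← Real.rpow_add hY]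
  refine (mul_le_mul_of_nonneg_left h.hP (by positivity)).trans (h.NM_le.trans (h.hX.trans_eq ?_))
  norm_num

theorem Par.N_le_X (h : Par ε k Y R K X N₀ M₂ M₃ c) : 2 * N₀ ≤ X := by
  have h1 := h.qrp_N
  simpa using h.qrp_le (by positivity) zero_le_one zero_le_one zero_le_one zero_le_one le_rfl h.hM₂ h.hM₃
    h.one_le_R h.one_le_R

theorem Par.M₂R_le (h : Par ε k Y R K X N₀ M₂ M₃ c) : M₂ * R ≤ X := by
  have h2 := h.hM₂
  have h4 := h.one_le_R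
  simpa using h.qrp_le zero_le_one (by positivity) zero_le_one (by positivity) zero_le_one h.qrp_N le_rfl
    h.hM₃ le_rfl h.one_le_R

theorem Par.M₃R_le (h : Par ε k Y R K X N₀ M₂ M₃ c) : M₃ * R ≤ X := by
  have h3 := h.hM₃
  have h4 := h.one_le_R
  simpa using h.qrp_le zero_le_one zero_le_one (by positivity) (by positivity) zero_le_one h.qrp_N h.hM₂
    le_rfl le_rfl h.one_le_R

theorem Par.M₂_le (h : Par ε k Y R K X N₀ M₂ M₃ c) : M₂ ≤ Y := by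
  exact (le_mul_of_one_le_right (zero_le_one.trans h.hM₂) h.one_le_R).trans (h.M₂R_le.trans h.X_le)

theorem Par.M₃_le (h : Par ε k Y R K X N₀ M₂ M₃ c) : M₃ ≤ Y := by
  exact (le_mul_of_one_le_right (zero_le_one.trans h.hM₃) h.one_le_R).trans (h.M₃R_le.trans h.X_le)

theorem norm_pl_le (l : ℤ) (M t : ℝ) {n : O} (hn : Prim n) : ‖pl l M t n‖ = LW 1 M (nm n) := by
  rw [pl, norm_mul, norm_zpow, norm_al hn.ne_zero, one_zpow, one_mul, norm_LN, LW]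

theorem norm_plw_le (l : ℤ) (M σ t R : ℝ) {n : O} (hn : Prim n) : ‖plw l M σ t R n‖ ≤ 1 := by
  unfold plw
  split_ifs
  · rw [pl, norm_mul, norm_zpow, norm_al hn.ne_zero, one_zpow, one_mul]
    exact norm_LN_le_one _ _ _ _
  · simp

theorem plw_supp {l : ℤ} {M σ t R : ℝ} {n : O} (h : plw l M σ t R n ≠ 0) : nm n ≤ M * R := by
  unfold plw at h
  exact not_not.1 fun h' => h (if_neg fun h1 => h' h1.2)

/-- a convolution that does not vanish has a non-vanishing term -/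
theorem cv_supp {f g : O → ℂ} {b : O} (h : cv f g b ≠ 0) :
    ∃ m n, Prim m ∧ Prim n ∧ m * n = b ∧ f m ≠ 0 ∧ g n ≠ 0 := by
  obtain ⟨p, hp, h1⟩ := Finset.exists_ne_zero_of_sum_ne_zero h
  obtain ⟨h2, h3, h4⟩ := mem_anti.1 hp
  exact ⟨p.1, p.2, h2, h3, h4, left_ne_zero_of_mul h1, right_ne_zero_of_mul h1⟩

/-- `card_anti`, `dn_le_of_dvd` -/
theorem norm_cv_le {f g : O → ℂ} {i j : ℕ} (hf : ∀ n, Prim n → ‖f n‖ ≤ dn n ^ i)
    (hg : ∀ n, Prim n → ‖g n‖ ≤ dn n ^ j) {b : O} (hb : Prim b) : ‖cv f g b‖ ≤ dn b ^ (i + j + 1) := by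
  unfold cv
  refine (norm_sum_le _ _).trans ((Finset.sum_le_card_nsmul _ _ (dn b ^ i * dn b ^ j)
    fun p hp => ?_).trans_eq ?_)
  · obtain ⟨h2, h3, h4⟩ := mem_anti.1 hp
    rw [norm_mul]
    exact mul_le_mul
      ((hf _ h2).trans (pow_le_pow_left₀ (dn_nonneg _) (dn_le_of_dvd hb.ne_zero (Dvd.intro _ h4)) i))
      ((hg _ h3).trans (pow_le_pow_left₀ (dn_nonneg _) (dn_le_of_dvd hb.ne_zero (Dvd.intro_left _ h4)) j))
      (norm_nonneg _) (pow_nonneg (dn_nonneg _) _)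
  · rw [nsmul_eq_mul, card_anti hb]
    ring

theorem Par.supp₂₃ (h : Par ε k Y R K X N₀ M₂ M₃ c) (l : ℤ) (σ t₂ t₃ : ℝ) (a b : O) :
    plw l M₂ σ t₂ R a ≠ 0 → plw l M₃ σ t₃ R b ≠ 0 → nm a * nm b ≤ X := by
  intro ha hb
  have h2 := h.hM₂
  have h3 := h.hM₃
  have h4 := h.one_le_R
  have := h.qrp_le zero_le_one (by positivity) (by positivity) (by positivity) (by positivity) h.qrp_N
    le_rfl le_rfl le_rfl le_rfl
  exact (mul_le_mul (plw_supp ha) (plw_supp hb) (nm_nonneg _) (by positivity)).trans (by linarith)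

theorem Par.supp₁ (h : Par ε k Y R K X N₀ M₂ M₃ c) (l : ℤ) (σ t₂ t₃ : ℝ) (a b : O) :
    c a ≠ 0 → cv (plw l M₂ σ t₂ R) (plw l M₃ σ t₃ R) b ≠ 0 → nm a * nm b ≤ X := by
  intro ha hb
  obtain ⟨m, n, -, -, rfl, hm, hn⟩ := cv_supp hb
  have h1 := h.qrp_N
  have h2 := h.hM₂
  have h3 := h.hM₃
  have h4 := h.one_le_R
  have := h.qrp_le (by positivity) (by positivity) (by positivity) (by positivity) (by positivity) le_rfl
    le_rfl le_rfl le_rfl le_rfl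
  rw [nm_mul]
  exact (mul_le_mul (h.hs a ha) (mul_le_mul (plw_supp hm) (plw_supp hn) (nm_nonneg _) (by positivity))
    (mul_nonneg (nm_nonneg _) (nm_nonneg _)) (by positivity)).trans (by linarith)

theorem Par.G3_supp (h : Par ε k Y R K X N₀ M₂ M₃ c) (l : ℤ) (σ t₂ t₃ : ℝ) {b : O}
    (hb : G3 l c M₂ t₂ M₃ t₃ σ R b ≠ 0) : nm b ≤ X := by
  obtain ⟨m, n, -, -, rfl, hm, hn⟩ := cv_supp hb
  rw [nm_mul]
  exact h.supp₁ l σ t₂ t₃ m n hm hn

theorem Par.norm_G3_le (h : Par ε k Y R K X N₀ M₂ M₃ c) (l : ℤ) (σ t₂ t₃ : ℝ) {b : O} (hb : Prim b) :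
    ‖G3 l c M₂ t₂ M₃ t₃ σ R b‖ ≤ dn b ^ (k + 2) := by
  exact norm_cv_le (i := k) (j := 1) (fun n _ => h.hc n) (fun n hn => norm_cv_le (i := 0) (j := 0)
    (fun m hm => (norm_plw_le l M₂ σ t₂ R hm).trans_eq (pow_zero _).symm)
    (fun m hm => (norm_plw_le l M₃ σ t₃ R hm).trans_eq (pow_zero _).symm) hn) hb

/-- only `d ∣ n` contribute -/
theorem norm_mq_le {T : Finset O} (hT : ∀ d ∈ T, Prim d) {n : O} (hn : n ≠ 0) : ‖mq T n‖ ≤ dn n := by
  classical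
  unfold mq
  rw [← Finset.sum_filter]
  refine (norm_sum_le _ _).trans ((Finset.sum_le_card_nsmul _ _ 1 fun d _ => norm_mu_le d).trans ?_)
  rw [nsmul_eq_mul, mul_one]
  unfold dn
  exact_mod_cast Finset.card_le_card fun d hd => (mem_pdiv hn).2
    ⟨hT d (Finset.mem_filter.1 hd).1, (dvd_pow_self d two_ne_zero).trans (Finset.mem_filter.1 hd).2⟩

theorem Lab.ne_zero {l h : O} (H : Lab X l h) : l ≠ 0 := by
  exact H.hl.ne_zero

theorem Lab.nm_row {l h : O} (H : Lab X l h) (κ : O) : nm (κ * h * l ^ 3) ≤ nm κ * nm l ^ 7 := by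
  have h1 := nm_le_of_dvd H.hhl (pow_ne_zero 4 H.ne_zero)
  rw [nm_pow] at h1
  rw [nm_mul, nm_mul, nm_pow]
  have := nm_nonneg κ
  have := nm_nonneg l
  calc _ ≤ nm κ * nm l ^ 4 * nm l ^ 3 := by gcongr
    _ = _ := by ring

theorem Lab.row_ne_zero {l h κ : O} (H : Lab X l h) (hκ : κ ≠ 0) : κ * h * l ^ 3 ≠ 0 := by
  exact mul_ne_zero (mul_ne_zero hκ H.hh.ne_zero) (pow_ne_zero 3 H.ne_zero)

theorem Lab.row_inj {l h : O} (H : Lab X l h) : Function.Injective fun κ : O => κ * h * l ^ 3 := by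
  exact fun a b hab => mul_right_cancel₀ H.hh.ne_zero (mul_right_cancel₀ (pow_ne_zero 3 H.ne_zero) hab)

theorem tgt_nonneg {Y K U L : ℝ} (hY : 0 ≤ Y) (hK : 0 ≤ K) (hU : 0 ≤ U) (hL : 0 ≤ L) : 0 ≤ tgt Y K U L := by
  unfold tgt
  positivity

end Crest.Agent.R12
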